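import Vale.Agent.P318.H867.Defs

/-! Coarea inequality: `Φ(c) ∑ |f x - f y| ≤ ∑ c x y |f x - f y|`. -/

open Finset

namespace Vale.Agent.P318.H867

variable {V : Type*} [Fintype V] [DecidableEq V]

lemma cutCap_nonneg {c : V → V → ℝ} (hc : ∀ i j, 0 ≤ c i j) (S : Finset V) : 0 ≤ cutCap c S :=
  sum_nonneg fun i _ => sum_nonneg fun j _ => hc i j

lemma phi_set_bddBelow {c : V → V → ℝ} (hc : ∀ i j, 0 ≤ c i j) :
    BddBelow {r : ℝ | ∃ S : Finset V, S.Nonempty ∧ Sᶜ.Nonempty ∧
      r = cutCap c S / ((S.card : ℝ) * ((Sᶜ).card : ℝ))} := by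
  refine ⟨0, ?_⟩
  rintro r ⟨S, -, -, rfl⟩
  exact div_nonneg (cutCap_nonneg hc S) (by positivity)

lemma phi_nonneg {c : V → V → ℝ} (hc : ∀ i j, 0 ≤ c i j) : 0 ≤ phi c := by
  apply Real.sInf_nonneg
  rintro r ⟨S, -, -, rfl⟩
  exact div_nonneg (cutCap_nonneg hc S) (by positivity)

/-- every set satisfies the cut inequality -/
lemma phi_mul_le {c : V → V → ℝ} (hc : ∀ i j, 0 ≤ c i j) (S : Finset V) :
    phi c * ((S.card : ℝ) * ((Sᶜ).card : ℝ)) ≤ cutCap c S := by
  by_cases h1 : S.Nonempty
  · by_cases h2 : Sᶜ.Nonempty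
    · have hpos : 0 < (S.card : ℝ) * ((Sᶜ).card : ℝ) := by
        have := h1.card_pos
        have := h2.card_pos
        positivity
      rw [← le_div_iff₀ hpos]
      exact csInf_le (phi_set_bddBelow hc) ⟨S, h1, h2, rfl⟩
    · rw [not_nonempty_iff_eq_empty] at h2
      simp [h2, cutCap]
  · rw [not_nonempty_iff_eq_empty] at h1
    simp [h1, cutCap]

/-- lower bound for `phi` -/
lemma le_phi {c : V → V → ℝ} {r : ℝ} [Nontrivial V]
    (h : ∀ S : Finset V, S.Nonempty → Sᶜ.Nonempty →
      r * ((S.card : ℝ) * ((Sᶜ).card : ℝ)) ≤ cutCap c S) : r ≤ phi c := by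
  apply le_csInf
  · obtain ⟨a, b, hab⟩ := exists_pair_ne V
    exact ⟨_, {a}, singleton_nonempty a, ⟨b, by simpa using hab.symm⟩, rfl⟩
  · rintro q ⟨S, h1, h2, rfl⟩
    have hpos : 0 < (S.card : ℝ) * ((Sᶜ).card : ℝ) := by
      have := h1.card_pos
      have := h2.card_pos
      positivity
    rw [le_div_iff₀ hpos]
    exact h S h1 h2

/-- indicator of `S` as a real number -/
def ind (S : Finset V) (x : V) : ℝ := if x ∈ S then 1 else 0

lemma sum_ind_sub (c : V → V → ℝ) (hs : ∀ i j, c i j = c j i) (S : Finset V) :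
    ∑ x, ∑ y, c x y * |ind S x - ind S y| = 2 * cutCap c S := by
  have h1 : ∀ x y, c x y * |ind S x - ind S y| =
      (if x ∈ S ∧ y ∉ S then c x y else 0) + (if x ∉ S ∧ y ∈ S then c x y else 0) := by
    intro x y
    by_cases hx : x ∈ S <;> by_cases hy : y ∈ S <;> simp [ind, hx, hy]
  simp_rw [h1, sum_add_distrib]
  have h2 : ∑ x, ∑ y, (if x ∈ S ∧ y ∉ S then c x y else 0) = cutCap c S := by
    unfold cutCap
    rw [← sum_filter_add_sum_filter_not univ (· ∈ S)]
    have : ∑ x with x ∉ S, ∑ y, (if x ∈ S ∧ y ∉ S then c x y else 0) = 0 := by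
      apply sum_eq_zero
      intro x hx
      simp at hx
      simp [hx]
    rw [this, add_zero]
    simp only [filter_mem_eq_inter, univ_inter]
    apply sum_congr rfl
    intro x hx
    simp only [hx, true_and]
    rw [← sum_filter]
    congr 1
    ext y; simp
  have h3 : ∑ x, ∑ y, (if x ∉ S ∧ y ∈ S then c x y else 0) = cutCap c S := by
    rw [← h2, sum_comm]
    apply sum_congr rfl; intro x _
    apply sum_congr rfl; intro y _
    rw [hs y x]
    simp [and_comm]
  rw [h2, h3]; ring

lemma card_ind_sub (S : Finset V) :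
    ∑ x, ∑ y, |ind S x - ind S y| = 2 * ((S.card : ℝ) * ((Sᶜ).card : ℝ)) := by
  have := sum_ind_sub (fun _ _ => (1 : ℝ)) (fun _ _ => rfl) S
  simp only [one_mul] at this
  rw [this]
  simp [cutCap]

lemma ind_ineq {c : V → V → ℝ} (hc : ∀ i j, 0 ≤ c i j) (hs : ∀ i j, c i j = c j i)
    (S : Finset V) :
    phi c * ∑ x, ∑ y, |ind S x - ind S y| ≤ ∑ x, ∑ y, c x y * |ind S x - ind S y| := by
  rw [sum_ind_sub c hs, card_ind_sub]
  linarith [phi_mul_le hc S]

/-- layer-cake formula -/
lemma abs_sub_eq_integral (a b : ℝ) :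
    |a - b| = ∫ t, |(if t < a then (1:ℝ) else 0) - (if t < b then 1 else 0)| := by
  wlog h : a ≤ b generalizing a b
  · rw [abs_sub_comm, this b a (le_of_not_ge h)]
    congr 1; ext t; rw [abs_sub_comm]
  have h1 : (fun t => |(if t < a then (1:ℝ) else 0) - (if t < b then 1 else 0)|) =
      (Set.Ico a b).indicator (fun _ => 1) := by
    ext t
    by_cases h2 : t < a
    · have h3 : t < b := lt_of_lt_of_le h2 h
      simp [h2, h3, Set.indicator, not_le.2 h2]
    · by_cases h3 : t < b
      · simp [h2, h3, Set.indicator, not_lt.1 h2]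
      · simp [h2, h3, Set.indicator]
  rw [h1, MeasureTheory.integral_indicator measurableSet_Ico]
  simp [abs_sub_comm a b, abs_of_nonneg (sub_nonneg.2 h), h]

lemma integrable_layer (a b : ℝ) :
    MeasureTheory.Integrable
      (fun t : ℝ => |(if t < a then (1:ℝ) else 0) - (if t < b then 1 else 0)|) := by
  wlog h : a ≤ b generalizing a b
  · have := this b a (le_of_not_ge h)
    convert this using 2 with t
    rw [abs_sub_comm]
  have h1 : (fun t => |(if t < a then (1:ℝ) else 0) - (if t < b then 1 else 0)|) =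
      (Set.Ico a b).indicator (fun _ => 1) := by
    ext t
    by_cases h2 : t < a
    · have h3 : t < b := lt_of_lt_of_le h2 h
      simp [h2, h3, Set.indicator, not_le.2 h2]
    · by_cases h3 : t < b
      · simp [h2, h3, Set.indicator, not_lt.1 h2]
      · simp [h2, h3, Set.indicator]
  rw [h1, MeasureTheory.integrable_indicator_iff measurableSet_Ico]
  simp

/-- **Coarea inequality.** -/
theorem coarea {c : V → V → ℝ} (hc : ∀ i j, 0 ≤ c i j) (hs : ∀ i j, c i j = c j i)
    (f : V → ℝ) :
    phi c * ∑ x, ∑ y, |f x - f y| ≤ ∑ x, ∑ y, c x y * |f x - f y| := by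
  have key : ∀ t : ℝ,
      phi c * ∑ x, ∑ y, |(if t < f x then (1:ℝ) else 0) - (if t < f y then 1 else 0)| ≤
        ∑ x, ∑ y, c x y * |(if t < f x then (1:ℝ) else 0) - (if t < f y then 1 else 0)| := by
    intro t
    have := ind_ineq hc hs (univ.filter fun x => t < f x)
    simpa [ind] using this
  have hint := fun x y => integrable_layer (f x) (f y)
  have h1 : ∑ x, ∑ y, |f x - f y| =
      ∫ t, ∑ x, ∑ y, |(if t < f x then (1:ℝ) else 0) - (if t < f y then 1 else 0)| := by
    rw [MeasureTheory.integral_finsetSum _ (fun x _ =>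
      MeasureTheory.integrable_finsetSum _ fun y _ => hint x y)]
    apply sum_congr rfl; intro x _
    rw [MeasureTheory.integral_finsetSum _ (fun y _ => hint x y)]
    apply sum_congr rfl; intro y _
    rw [abs_sub_eq_integral]
  have h2 : ∑ x, ∑ y, c x y * |f x - f y| =
      ∫ t, ∑ x, ∑ y, c x y * |(if t < f x then (1:ℝ) else 0) - (if t < f y then 1 else 0)| := by
    rw [MeasureTheory.integral_finsetSum _ (fun x _ =>
      MeasureTheory.integrable_finsetSum _ fun y _ => (hint x y).const_mul _)]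
    apply sum_congr rfl; intro x _
    rw [MeasureTheory.integral_finsetSum _ (fun y _ => (hint x y).const_mul _)]
    apply sum_congr rfl; intro y _
    rw [MeasureTheory.integral_const_mul, abs_sub_eq_integral]
  rw [h1, h2, ← MeasureTheory.integral_const_mul]
  apply MeasureTheory.integral_mono
  · exact (MeasureTheory.integrable_finsetSum _ fun x _ =>
      MeasureTheory.integrable_finsetSum _ fun y _ => hint x y).const_mul _
  · exact MeasureTheory.integrable_finsetSum _ fun x _ =>
      MeasureTheory.integrable_finsetSum _ fun y _ => (hint x y).const_mul _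
  · exact key

end Vale.Agent.P318.H867
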