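import Mathlib

/-!
# Uniform sparsest cut and the Goemans–Linial relaxation (definitions of `problem.md`)

The vertex set is a finite type `V` (so `N = Fintype.card V`); sums over unordered pairs are
written as half of the sum over ordered pairs.
-/

open Finset

namespace Vale.Agent.P318.H867

variable {V : Type*} [Fintype V] [DecidableEq V]

/-- The capacity between `S` and its complement. -/
def cutCap (c : V → V → ℝ) (S : Finset V) : ℝ := ∑ i ∈ S, ∑ j ∈ Sᶜ, c i j

/-- `Φ(c)`: the minimum over nonempty proper `S` of `cutCap c S / (|S| (N - |S|))`. -/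
noncomputable def phi (c : V → V → ℝ) : ℝ :=
  sInf {r : ℝ | ∃ S : Finset V, S.Nonempty ∧ Sᶜ.Nonempty ∧
    r = cutCap c S / ((S.card : ℝ) * ((Sᶜ).card : ℝ))}

/-- A negative-type semimetric on `V`: squared Euclidean distances of vectors in `ℝ^V`, with all
triangle inequalities. -/
def IsNegTypeSemimetric (d : V → V → ℝ) : Prop :=
  (∃ x : V → EuclideanSpace ℝ V, ∀ i j, d i j = ‖x i - x j‖ ^ 2) ∧
    ∀ i j k, d i k ≤ d i j + d j k

/-- The Goemans–Linial relaxation. -/
noncomputable def glValue (c : V → V → ℝ) : ℝ :=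
  sInf {r : ℝ | ∃ d : V → V → ℝ, IsNegTypeSemimetric d ∧ (∑ i, ∑ j, d i j) / 2 = 1 ∧
    r = (∑ i, ∑ j, c i j * d i j) / 2}

end Vale.Agent.P318.H867
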