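import Vale.Agent.P318.H867.Cut

/-! Characters of a finite abelian group: spectral form of translation averages. -/

open Finset
open scoped ComplexConjugate

set_option linter.unusedSectionVars false

namespace Vale.Agent.P318.H867

variable {G : Type*} [AddCommGroup G] [Fintype G] [DecidableEq G]

/-- `|1 - χ(z)|²`. -/
noncomputable def Q (χ : AddChar G ℂ) (z : G) : ℝ := ‖1 - χ z‖ ^ 2

lemma Q_nonneg (χ : AddChar G ℂ) (z : G) : 0 ≤ Q χ z := by unfold Q; positivity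

lemma Q_eq (χ : AddChar G ℂ) (z : G) : Q χ z = 2 - 2 * (χ z).re := by
  have h1 : ‖χ z‖ = 1 := χ.norm_apply z
  have h2 : ‖1 - χ z‖ ^ 2 = ‖(1 : ℂ)‖ ^ 2 - 2 * ((1 : ℂ) * conj (χ z)).re + ‖χ z‖ ^ 2 := by
    have := Complex.normSq_sub 1 (χ z)
    simp only [Complex.normSq_eq_norm_sq] at this
    rw [this]; ring
  unfold Q
  rw [h2, h1]
  simp
  ring

lemma Q_zero (z : G) : Q (0 : AddChar G ℂ) z = 0 := by simp [Q]

lemma Q_neg (χ : AddChar G ℂ) (z : G) : Q χ (-z) = Q χ z := by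
  rw [Q_eq, Q_eq, AddChar.map_neg_eq_conj]; simp

lemma Q_le_four (χ : AddChar G ℂ) (z : G) : Q χ z ≤ 4 := by
  have h1 : ‖χ z‖ = 1 := χ.norm_apply z
  have : ‖1 - χ z‖ ≤ 2 := by
    calc ‖1 - χ z‖ ≤ ‖(1:ℂ)‖ + ‖χ z‖ := norm_sub_le _ _
      _ = 2 := by rw [h1]; norm_num
  unfold Q
  nlinarith [norm_nonneg (1 - χ z)]

/-- Parseval. -/
lemma parseval (h : G → ℝ) :
    ∑ χ : AddChar G ℂ, ‖∑ x, (h x : ℂ) * χ x‖ ^ 2 = (Fintype.card G : ℝ) * ∑ x, (h x) ^ 2 := by
  have key : ((∑ χ : AddChar G ℂ, ‖∑ x, (h x : ℂ) * χ x‖ ^ 2 : ℝ) : ℂ) =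
      (((Fintype.card G : ℝ) * ∑ x, (h x) ^ 2 : ℝ) : ℂ) := by
    push_cast
    have h1 : ∀ χ : AddChar G ℂ, ((‖∑ x, (h x : ℂ) * χ x‖ : ℂ)) ^ 2 =
        ∑ x, ∑ y, (h x : ℂ) * (h y : ℂ) * χ (x - y) := by
      intro χ
      rw [← Complex.mul_conj', map_sum, sum_mul_sum]
      apply sum_congr rfl; intro x _
      apply sum_congr rfl; intro y _
      rw [map_mul, Complex.conj_ofReal, ← AddChar.map_neg_eq_conj, sub_eq_add_neg,
        AddChar.map_add_eq_mul]
      ring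
    simp_rw [h1]
    rw [sum_comm]
    have h2 : ∀ x : G, ∑ χ : AddChar G ℂ, ∑ y, (h x : ℂ) * (h y : ℂ) * χ (x - y) =
        (Fintype.card G : ℂ) * (h x : ℂ) ^ 2 := by
      intro x
      rw [sum_comm]
      simp_rw [← mul_sum, AddChar.sum_apply_eq_ite, sub_eq_zero]
      simp
      ring
    simp_rw [h2, ← mul_sum]
  exact_mod_cast key

/-- the spectral weight of a real function -/
noncomputable def wt (f : G → ℝ) (χ : AddChar G ℂ) : ℝ :=
  ‖∑ x, (f x : ℂ) * χ x‖ ^ 2 / Fintype.card G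

lemma wt_nonneg (f : G → ℝ) (χ : AddChar G ℂ) : 0 ≤ wt f χ := by unfold wt; positivity

lemma sum_shift_sub_sq (f : G → ℝ) (z : G) :
    ∑ x, (f (x + z) - f x) ^ 2 = ∑ χ : AddChar G ℂ, wt f χ * Q χ z := by
  have hn : (Fintype.card G : ℝ) ≠ 0 := by
    have := Fintype.card_pos (α := G); positivity
  have h := parseval (fun x => f (x + z) - f x)
  have h1 : ∀ χ : AddChar G ℂ, ∑ x, ((f (x + z) - f x : ℝ) : ℂ) * χ x =
      (χ (-z) - 1) * ∑ x, (f x : ℂ) * χ x := by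
    intro χ
    have h2 : ∑ x, (f (x + z) : ℂ) * χ x = χ (-z) * ∑ x, (f x : ℂ) * χ x := by
      rw [mul_sum, ← Equiv.sum_comp (Equiv.addRight z) (fun x => χ (-z) * ((f x : ℂ) * χ x))]
      apply sum_congr rfl; intro x _
      simp only [Equiv.coe_addRight]
      rw [AddChar.map_add_eq_mul]
      have : χ (-z) * χ z = 1 := by
        rw [← AddChar.map_add_eq_mul]; simp
      calc (f (x + z) : ℂ) * χ x = (f (x + z) : ℂ) * χ x * (χ (-z) * χ z) := by rw [this, mul_one]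
        _ = _ := by ring
    push_cast
    simp_rw [sub_mul, sum_sub_distrib, h2]
    ring
  have h3 : ∀ χ : AddChar G ℂ, ‖∑ x, ((f (x + z) - f x : ℝ) : ℂ) * χ x‖ ^ 2 =
      (Fintype.card G : ℝ) * (wt f χ * Q χ z) := by
    intro χ
    rw [h1, norm_mul, mul_pow, norm_sub_rev]
    have h4 : ‖1 - χ (-z)‖ ^ 2 = Q χ z := by rw [← Q_neg]; rfl
    rw [h4]
    unfold wt
    field_simp
  simp_rw [h3, ← mul_sum] at h
  exact (mul_left_cancel₀ hn h).symm

/-- the translation average of a squared-distance function -/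
def R (d : G → G → ℝ) (z : G) : ℝ := ∑ x, d (x + z) x

lemma sum_pairs (c : G → ℝ) (d : G → G → ℝ) :
    ∑ x, ∑ y, c (x - y) * d x y = ∑ z, c z * R d z := by
  have h : ∀ z, c z * R d z = ∑ y, c z * d (y + z) y := fun z => by rw [R, mul_sum]
  simp_rw [h]
  rw [sum_comm, sum_comm (s := univ) (t := univ) (f := fun z y => c z * d (y + z) y)]
  apply sum_congr rfl; intro y _
  rw [← Equiv.sum_comp (Equiv.addLeft y) (fun x => c (x - y) * d x y)]
  apply sum_congr rfl; intro z _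
  simp

lemma sum_pairs_one (d : G → G → ℝ) : ∑ x, ∑ y, d x y = ∑ z, R d z := by
  have := sum_pairs (fun _ => (1:ℝ)) d
  simpa using this

lemma R_add_le {d : G → G → ℝ} (h : ∀ i j k, d i k ≤ d i j + d j k) (z w : G) :
    R d (z + w) ≤ R d z + R d w := by
  unfold R
  have h1 : ∑ x, d (x + z) x = ∑ x, d (x + w + z) (x + w) :=
    (Equiv.sum_comp (Equiv.addRight w) (fun x => d (x + z) x)).symm
  rw [h1, ← sum_add_distrib]
  apply sum_le_sum
  intro x _
  have := h (x + (z + w)) (x + w) x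
  rwa [show x + (z + w) = x + w + z by abel] at this ⊢

/-- spectral weights of a vector-valued function -/
noncomputable def wtV (v : G → EuclideanSpace ℝ G) (χ : AddChar G ℂ) : ℝ :=
  ∑ k, wt (fun x => v x k) χ

lemma wtV_nonneg (v : G → EuclideanSpace ℝ G) (χ : AddChar G ℂ) : 0 ≤ wtV v χ :=
  sum_nonneg fun _ _ => wt_nonneg _ _

lemma R_eq {d : G → G → ℝ} {v : G → EuclideanSpace ℝ G} (h : ∀ i j, d i j = ‖v i - v j‖ ^ 2)
    (z : G) : R d z = ∑ χ : AddChar G ℂ, wtV v χ * Q χ z := by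
  unfold R wtV
  simp_rw [sum_mul]
  rw [sum_comm]
  simp_rw [← sum_shift_sub_sq]
  rw [sum_comm]
  apply sum_congr rfl; intro x _
  rw [h, EuclideanSpace.norm_sq_eq]
  simp

lemma sum_Q {χ : AddChar G ℂ} (hχ : χ ≠ 0) : ∑ z, Q χ z = 2 * Fintype.card G := by
  simp_rw [Q_eq, sum_sub_distrib, ← mul_sum]
  have h1 : ∑ z, χ z = 0 := AddChar.sum_eq_zero_iff_ne_zero.2 hχ
  have h2 : ∑ z, (χ z).re = 0 := by
    have := congrArg Complex.re h1
    simpa using this
  rw [h2]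
  simp
  ring

lemma sum_R {d : G → G → ℝ} {v : G → EuclideanSpace ℝ G} (h : ∀ i j, d i j = ‖v i - v j‖ ^ 2) :
    ∑ x, ∑ y, d x y = 2 * Fintype.card G * ∑ χ ∈ univ.erase (0 : AddChar G ℂ), wtV v χ := by
  rw [sum_pairs_one]
  simp_rw [R_eq h]
  rw [sum_comm]
  simp_rw [← mul_sum]
  rw [← add_sum_erase _ _ (mem_univ (0 : AddChar G ℂ))]
  have h0 : ∑ z : G, Q (0 : AddChar G ℂ) z = 0 := by simp [Q_zero]
  rw [h0, mul_zero, zero_add, mul_sum]
  apply sum_congr rfl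
  intro χ hχ
  rw [sum_Q (ne_of_mem_erase hχ)]
  ring

/-- `L_c(χ) = ∑ c(z) |1 - χ(z)|²` -/
noncomputable def Lc (c : G → ℝ) (χ : AddChar G ℂ) : ℝ := ∑ z, c z * Q χ z

lemma Lc_nonneg {c : G → ℝ} (hc : ∀ z, 0 ≤ c z) (χ : AddChar G ℂ) : 0 ≤ Lc c χ :=
  sum_nonneg fun z _ => mul_nonneg (hc z) (Q_nonneg χ z)

lemma Lc_zero (c : G → ℝ) : Lc c 0 = 0 := by simp [Lc, Q_zero]

lemma sum_c_R {d : G → G → ℝ} {v : G → EuclideanSpace ℝ G} (h : ∀ i j, d i j = ‖v i - v j‖ ^ 2)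
    (c : G → ℝ) : ∑ z, c z * R d z = ∑ χ : AddChar G ℂ, wtV v χ * Lc c χ := by
  simp_rw [R_eq h, Lc, mul_sum]
  rw [sum_comm]
  apply sum_congr rfl; intro χ _
  apply sum_congr rfl; intro z _
  ring

/-- the cut form in the spectral picture -/
lemma cutCap_eq {c : G → ℝ} (hs : ∀ z, c (-z) = c z) (S : Finset G) :
    2 * cutCap (fun x y => c (x - y)) S = ∑ χ : AddChar G ℂ, wt (ind S) χ * Lc c χ := by
  have hs' : ∀ i j : G, c (i - j) = c (j - i) := fun i j => by rw [← hs (i - j), neg_sub]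
  rw [← sum_ind_sub (fun x y => c (x - y)) hs' S]
  have h1 : ∀ x y, |ind S x - ind S y| = (ind S x - ind S y) ^ 2 := by
    intro x y
    by_cases hx : x ∈ S <;> by_cases hy : y ∈ S <;> simp [ind, hx, hy]
  simp_rw [h1]
  rw [sum_pairs c (fun x y => (ind S x - ind S y) ^ 2)]
  unfold R
  simp_rw [sum_shift_sub_sq, Lc, mul_sum]
  rw [sum_comm]
  apply sum_congr rfl; intro χ _
  apply sum_congr rfl; intro z _
  ring

/-- comparison of cuts from comparison of the spectra -/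
theorem phi_le_of_Lc_le [Nontrivial G] {c c' : G → ℝ} (hc : ∀ z, 0 ≤ c z) (hs : ∀ z, c (-z) = c z)
    (hs' : ∀ z, c' (-z) = c' z) {K : ℝ} (hK : 0 < K)
    (h : ∀ χ, Lc c χ ≤ K * Lc c' χ) :
    phi (fun x y => c (x - y)) ≤ K * phi (fun x y => c' (x - y)) := by
  rw [← div_le_iff₀' hK]
  apply le_phi
  intro S _ _
  have h1 := phi_mul_le (c := fun x y => c (x - y)) (fun x y => hc _) S
  have h2 := cutCap_eq hs S
  have h3 := cutCap_eq hs' S
  have h4 : ∑ χ : AddChar G ℂ, wt (ind S) χ * Lc c χ ≤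
      K * ∑ χ : AddChar G ℂ, wt (ind S) χ * Lc c' χ := by
    rw [mul_sum]
    apply sum_le_sum
    intro χ _
    calc wt (ind S) χ * Lc c χ ≤ wt (ind S) χ * (K * Lc c' χ) :=
          mul_le_mul_of_nonneg_left (h χ) (wt_nonneg _ _)
      _ = _ := by ring
  rw [← h2, ← h3] at h4
  rw [div_mul_eq_mul_div, div_le_iff₀ hK]
  linarith

/-- **Rounding along one character.** -/
theorem phi_le_char {c : G → ℝ} (hc : ∀ z, 0 ≤ c z) (hs : ∀ z, c (-z) = c z)
    {χ : AddChar G ℂ} (hχ : χ ≠ 0) :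
    phi (fun x y => c (x - y)) * Fintype.card G ≤ 2 * ∑ z, c z * ‖1 - χ z‖ := by
  have hn : (0 : ℝ) < Fintype.card G := by
    have := Fintype.card_pos (α := G); positivity
  have hs' : ∀ i j : G, c (i - j) = c (j - i) := fun i j => by rw [← hs (i - j), neg_sub]
  have h1 := coarea (c := fun x y => c (x - y)) (fun x y => hc _) hs' (fun x => (χ x).re)
  have h2 := coarea (c := fun x y => c (x - y)) (fun x y => hc _) hs' (fun x => (χ x).im)
  have hφ : 0 ≤ phi (fun x y => c (x - y)) := phi_nonneg (fun x y => hc _)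
  have hnorm : ∀ x y : G, ‖χ x - χ y‖ = ‖1 - χ (x - y)‖ := by
    intro x y
    have : χ x - χ y = -(χ y * (1 - χ (x - y))) := by
      have h3 : χ x = χ y * χ (x - y) := by
        rw [← AddChar.map_add_eq_mul]; congr 1; abel
      rw [h3]; ring
    rw [this, norm_neg, norm_mul, χ.norm_apply, one_mul]
  -- lower bound for the total variation
  have h3 : ∀ x y : G, ‖χ x - χ y‖ ^ 2 ≤
      2 * (|(χ x).re - (χ y).re| + |(χ x).im - (χ y).im|) := by
    intro x y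
    have h4 : ‖χ x - χ y‖ ≤ |(χ x).re - (χ y).re| + |(χ x).im - (χ y).im| := by
      have := Complex.norm_le_abs_re_add_abs_im (χ x - χ y)
      simpa using this
    have h5 : ‖χ x - χ y‖ ≤ 2 := by
      calc ‖χ x - χ y‖ ≤ ‖χ x‖ + ‖χ y‖ := norm_sub_le _ _
        _ = 2 := by rw [χ.norm_apply, χ.norm_apply]; norm_num
    nlinarith [norm_nonneg (χ x - χ y)]
  have h6 : ∑ x, ∑ y, ‖χ x - χ y‖ ^ 2 = 2 * (Fintype.card G : ℝ) ^ 2 := by
    simp_rw [hnorm]
    have h7 := sum_pairs (fun z => ‖1 - χ z‖ ^ 2) (fun _ _ => (1 : ℝ))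
    simp only [mul_one] at h7
    rw [h7]
    have h8 : ∀ z : G, R (fun _ _ => (1 : ℝ)) z = Fintype.card G := by intro z; simp [R]
    simp_rw [h8, ← sum_mul]
    have h9 : ∑ z, ‖1 - χ z‖ ^ 2 = 2 * Fintype.card G := sum_Q hχ
    rw [h9]; ring
  have h10 : (Fintype.card G : ℝ) ^ 2 ≤
      ∑ x, ∑ y, |(χ x).re - (χ y).re| + ∑ x, ∑ y, |(χ x).im - (χ y).im| := by
    have : ∑ x, ∑ y, ‖χ x - χ y‖ ^ 2 ≤
        ∑ x, ∑ y, 2 * (|(χ x).re - (χ y).re| + |(χ x).im - (χ y).im|) :=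
      sum_le_sum fun x _ => sum_le_sum fun y _ => h3 x y
    rw [h6] at this
    simp_rw [← mul_sum, sum_add_distrib] at this
    linarith
  -- upper bound
  have h11 : ∑ x, ∑ y, c (x - y) * |(χ x).re - (χ y).re| ≤
      ∑ x, ∑ y, c (x - y) * ‖χ x - χ y‖ := by
    apply sum_le_sum; intro x _
    apply sum_le_sum; intro y _
    apply mul_le_mul_of_nonneg_left _ (hc _)
    have := Complex.abs_re_le_norm (χ x - χ y)
    simpa using this
  have h12 : ∑ x, ∑ y, c (x - y) * |(χ x).im - (χ y).im| ≤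
      ∑ x, ∑ y, c (x - y) * ‖χ x - χ y‖ := by
    apply sum_le_sum; intro x _
    apply sum_le_sum; intro y _
    apply mul_le_mul_of_nonneg_left _ (hc _)
    have := Complex.abs_im_le_norm (χ x - χ y)
    simpa using this
  have h13 : ∑ x, ∑ y, c (x - y) * ‖χ x - χ y‖ = Fintype.card G * ∑ z, c z * ‖1 - χ z‖ := by
    simp_rw [hnorm]
    have h7 := sum_pairs (fun z => c z * ‖1 - χ z‖) (fun _ _ => (1 : ℝ))
    simp only [mul_one] at h7
    rw [h7]
    have h8 : ∀ z : G, R (fun _ _ => (1 : ℝ)) z = Fintype.card G := by intro z; simp [R]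
    simp_rw [h8, ← sum_mul]
    ring
  have h14 : phi (fun x y => c (x - y)) * (Fintype.card G : ℝ) ^ 2 ≤
      2 * (Fintype.card G * ∑ z, c z * ‖1 - χ z‖) := by
    calc phi (fun x y => c (x - y)) * (Fintype.card G : ℝ) ^ 2
        ≤ phi (fun x y => c (x - y)) *
          (∑ x, ∑ y, |(χ x).re - (χ y).re| + ∑ x, ∑ y, |(χ x).im - (χ y).im|) :=
          mul_le_mul_of_nonneg_left h10 hφ
      _ ≤ _ := by rw [mul_add, ← h13]; linarith
  have h15 : (phi (fun x y => c (x - y)) * Fintype.card G) * Fintype.card G ≤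
      (2 * ∑ z, c z * ‖1 - χ z‖) * Fintype.card G := by
    calc _ = phi (fun x y => c (x - y)) * (Fintype.card G : ℝ) ^ 2 := by ring
      _ ≤ _ := h14
      _ = _ := by ring
  exact le_of_mul_le_mul_right h15 hn

end Vale.Agent.P318.H867
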