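import Vale.Agent.P318.H867.Sampling

/-! The integrality gap of the Goemans–Linial relaxation on Cayley graphs of finite abelian
groups. -/

open Finset
open scoped ComplexConjugate Real

set_option linter.unusedSectionVars false

namespace Vale.Agent.P318.H867

variable {G : Type*} [AddCommGroup G] [Fintype G] [DecidableEq G]

/-- spectral data of a feasible solution -/
lemma feasible_data [Nontrivial G] {d : G → G → ℝ} (hd : IsNegTypeSemimetric d)
    (h1 : (∑ i, ∑ j, d i j) / 2 = 1) :
    ∃ A : AddChar G ℂ → ℝ, (∀ χ, 0 ≤ A χ) ∧ (∀ z, R d z = ∑ χ, A χ * Q χ z) ∧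
      (∀ z w, R d (z + w) ≤ R d z + R d w) ∧
      ∑ χ ∈ univ.erase (0 : AddChar G ℂ), A χ = 1 / Fintype.card G ∧
      ∀ c : G → ℝ, ∑ z, c z * R d z = ∑ χ, A χ * Lc c χ := by
  have hn : (0 : ℝ) < Fintype.card G := by
    have := Fintype.card_pos (α := G); positivity
  obtain ⟨⟨v, hv⟩, htri⟩ := hd
  refine ⟨wtV v, wtV_nonneg v, R_eq hv, R_add_le htri, ?_, sum_c_R hv⟩
  have h2 := sum_R hv
  have h3 : ∑ i, ∑ j, d i j = 2 := by linarith
  rw [h3] at h2
  rw [eq_div_iff hn.ne']
  linarith

lemma logb_bound (M : ℕ) (hM : 1 ≤ M) : (Nat.clog 2 M : ℝ) ≤ 1 + 2 * Real.log M := by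
  have hM' : (1 : ℝ) ≤ M := by exact_mod_cast hM
  rcases Nat.eq_zero_or_pos (Nat.clog 2 M) with h | h
  · rw [h]
    have := Real.log_nonneg hM'
    push_cast
    linarith
  · have h1 : 2 ^ (Nat.clog 2 M - 1) < M := by
      apply Nat.pow_pred_clog_lt_self (by norm_num)
      by_contra h2
      have : M = 1 := by omega
      rw [this] at h
      simp at h
    have h2 : (2 : ℝ) ^ (Nat.clog 2 M - 1) ≤ M := by exact_mod_cast h1.le
    have h3 := Real.log_le_log (by positivity) h2
    rw [Real.log_pow] at h3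
    have h4 : 1 / 2 ≤ Real.log 2 := by
      have := Real.log_two_gt_d9
      linarith
    have h5 : ((Nat.clog 2 M - 1 : ℕ) : ℝ) = (Nat.clog 2 M : ℝ) - 1 := by
      rw [Nat.cast_sub h]; simp
    rw [h5] at h3
    have h6 : (0 : ℝ) ≤ (Nat.clog 2 M : ℝ) - 1 := by
      rw [← h5]; positivity
    nlinarith

/-- the value of a feasible solution -/
noncomputable def obj (c : G → ℝ) (d : G → G → ℝ) : ℝ := (∑ i, ∑ j, c (i - j) * d i j) / 2

lemma obj_eq (c : G → ℝ) (d : G → G → ℝ) : obj c d = (∑ z, c z * R d z) / 2 := by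
  rw [obj, sum_pairs]

lemma phi_eq_zero_of_c {c : G → ℝ} (h : ∀ z, c z = 0) [Nontrivial G] :
    phi (fun x y : G => c (x - y)) ≤ 0 := by
  obtain ⟨a, ha⟩ := exists_ne (0 : G)
  obtain ⟨ψ, hψ⟩ := AddChar.exists_apply_ne_zero.2 ha
  have hψ0 : ψ ≠ 0 := by
    rintro rfl
    exact hψ (by simp)
  have hn : (0 : ℝ) < Fintype.card G := by
    have := Fintype.card_pos (α := G); positivity
  have := phi_le_char (c := c) (fun z => by rw [h z]) (fun z => by rw [h, h]) hψ0
  simp only [h, zero_mul, sum_const_zero, mul_zero] at this ⊢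
  by_contra hcon
  push Not at hcon
  exact absurd this (not_le.2 (mul_pos hcon hn))

/-- number of generators -/
theorem bound_support [Nontrivial G] {c : G → ℝ} (hc : ∀ z, 0 ≤ c z) (hs : ∀ z, c (-z) = c z)
    {d : G → G → ℝ} (hd : IsNegTypeSemimetric d) (h1 : (∑ i, ∑ j, d i j) / 2 = 1)
    (M : ℕ) (hM1 : 1 ≤ M) (hM : (univ.filter fun z => c z ≠ 0).card ≤ M) :
    phi (fun x y => c (x - y)) ≤ 8 * π / 3 * (Nat.clog 2 (4 * M) + 2) * obj c d := by
  have hn : (0 : ℝ) < Fintype.card G := by
    have := Fintype.card_pos (α := G); positivity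
  obtain ⟨A, hA, hr, hadd, hT, -⟩ := feasible_data hd h1
  have hTpos : 0 < ∑ χ ∈ univ.erase (0 : AddChar G ℂ), A χ := by rw [hT]; positivity
  obtain ⟨χ, hχ, hcost⟩ := exists_char_support hA hr hadd hc hTpos M (Nat.clog 2 (4 * M)) hM1 hM
    (Nat.le_pow_clog (by norm_num) _)
  have h2 := phi_le_char hc hs hχ
  rw [hT, mul_one_div, div_le_iff₀ hn] at hcost
  have h3 : phi (fun x y => c (x - y)) * Fintype.card G ≤
      (8 * π / 3 * (Nat.clog 2 (4 * M) + 2) * obj c d) * Fintype.card G := by
    rw [obj_eq]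
    linarith
  exact le_of_mul_le_mul_right h3 hn

/-- exponent -/
theorem bound_exponent [Nontrivial G] {c : G → ℝ} (hc : ∀ z, 0 ≤ c z) (hs : ∀ z, c (-z) = c z)
    {d : G → G → ℝ} (hd : IsNegTypeSemimetric d) (h1 : (∑ i, ∑ j, d i j) / 2 = 1) :
    phi (fun x y => c (x - y)) ≤ 2 * π * Nat.clog 2 (AddMonoid.exponent G) * obj c d := by
  have hn : (0 : ℝ) < Fintype.card G := by
    have := Fintype.card_pos (α := G); positivity
  obtain ⟨A, hA, hr, hadd, hT, -⟩ := feasible_data hd h1
  have hTpos : 0 < ∑ χ ∈ univ.erase (0 : AddChar G ℂ), A χ := by rw [hT]; positivity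
  obtain ⟨χ, hχ, hcost⟩ := exists_char_exponent hA hr hadd hc hTpos (AddMonoid.exponent G)
    (Nat.clog 2 (AddMonoid.exponent G)) AddMonoid.exponent_ne_zero_of_finite
    (fun z => AddMonoid.exponent_nsmul_eq_zero z) (Nat.le_pow_clog (by norm_num) _)
  have h2 := phi_le_char hc hs hχ
  rw [hT, mul_one_div, div_le_iff₀ hn] at hcost
  have h3 : phi (fun x y => c (x - y)) * Fintype.card G ≤
      (2 * π * Nat.clog 2 (AddMonoid.exponent G) * obj c d) * Fintype.card G := by
    rw [obj_eq]
    linarith
  exact le_of_mul_le_mul_right h3 hn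

/-- order of the group -/
theorem bound_card [Nontrivial G] {c : G → ℝ} (hc : ∀ z, 0 ≤ c z) (hs : ∀ z, c (-z) = c z)
    {d : G → G → ℝ} (hd : IsNegTypeSemimetric d) (h1 : (∑ i, ∑ j, d i j) / 2 = 1)
    (m : ℕ) (hm : 4 * (8 * (1 + Real.exp 1) * Real.log (Fintype.card G)) *
      Real.log (2 * Fintype.card G) ≤ m) (hm1 : 1 ≤ m) :
    phi (fun x y => c (x - y)) ≤ 64 * π / 3 * (Nat.clog 2 (8 * m) + 2) * obj c d := by
  have hn : (0 : ℝ) < Fintype.card G := by
    have := Fintype.card_pos (α := G); positivity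
  have hpi := Real.pi_pos
  obtain ⟨A, hA, hr, hadd, hT, hL⟩ := feasible_data hd h1
  have hTpos : 0 < ∑ χ ∈ univ.erase (0 : AddChar G ℂ), A χ := by rw [hT]; positivity
  have hr0 := r_nonneg hA hr
  have hobj : 0 ≤ obj c d := by
    rw [obj_eq]
    have : 0 ≤ ∑ z, c z * R d z := sum_nonneg fun z _ => mul_nonneg (hc z) (hr0 z)
    positivity
  by_cases hpos : ∀ χ : AddChar G ℂ, χ ≠ 0 → 0 < Lc c χ
  · obtain ⟨σ, hσ0, hσ, hσD⟩ := exists_sensitivity hc hpos
    have hre : ∀ z, R d (-z) = R d z := by
      intro z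
      rw [hr, hr]
      simp_rw [Q_neg]
    have hrpos : 0 < ∑ z, c z * R d z := by
      rw [hL]
      obtain ⟨χ, hχ, hχA⟩ : ∃ χ ∈ univ.erase (0 : AddChar G ℂ), 0 < A χ := by
        by_contra hcon
        push Not at hcon
        exact absurd hTpos (not_lt.2 (sum_nonpos hcon))
      calc 0 < A χ * Lc c χ := mul_pos hχA (hpos χ (ne_of_mem_erase hχ))
        _ ≤ _ := single_le_sum (f := fun χ => A χ * Lc c χ)
            (fun χ _ => mul_nonneg (hA χ) (Lc_nonneg hc χ)) (mem_univ χ)
    obtain ⟨c', hc', hs', hcard, hLL, hcost⟩ := exists_sparsifier hc hpos hσ0 hσ hσD hr0 hre hrpos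
      m hm
    have h2 := phi_le_of_Lc_le hc hs hs' (by norm_num : (0:ℝ) < 4) hLL
    have h3 := bound_support hc' hs' hd h1 (2 * m) (by omega) hcard
    have h4 : obj c' d ≤ 2 * obj c d := by
      rw [obj_eq, obj_eq]
      linarith
    rw [show 4 * (2 * m) = 8 * m by ring] at h3
    have h5 : 8 * π / 3 * (Nat.clog 2 (8 * m) + 2) * obj c' d ≤
        8 * π / 3 * (Nat.clog 2 (8 * m) + 2) * (2 * obj c d) :=
      mul_le_mul_of_nonneg_left h4 (by positivity)
    linarith
  · push Not at hpos
    obtain ⟨χ, hχ, hχL⟩ := hpos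
    have h0 : ∀ z, c z * Q χ z = 0 := by
      have h2 : Lc c χ = 0 := le_antisymm hχL (Lc_nonneg hc χ)
      intro z
      exact (sum_eq_zero_iff_of_nonneg
        (fun z _ => mul_nonneg (hc z) (Q_nonneg χ z))).1 h2 z (mem_univ _)
    have h2 := phi_le_char hc hs hχ
    have h3 : ∑ z, c z * ‖1 - χ z‖ = 0 := by
      apply sum_eq_zero
      intro z _
      rcases mul_eq_zero.1 (h0 z) with h | h
      · rw [h, zero_mul]
      · unfold Q at h
        have : ‖1 - χ z‖ = 0 := by simpa using h
        rw [this, mul_zero]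
    rw [h3, mul_zero] at h2
    have h4 : phi (fun x y => c (x - y)) ≤ 0 := by
      by_contra hcon
      push Not at hcon
      exact absurd h2 (not_le.2 (mul_pos hcon hn))
    refine h4.trans ?_
    positivity

/-- a feasible solution exists -/
lemma exists_feasible (V : Type*) [Fintype V] [DecidableEq V] [Nontrivial V] :
    ∃ d : V → V → ℝ, IsNegTypeSemimetric d ∧ (∑ i, ∑ j, d i j) / 2 = 1 := by
  have hn : (1 : ℝ) < Fintype.card V := by exact_mod_cast Fintype.one_lt_card (α := V)
  set N : ℝ := (Fintype.card V : ℝ) with hN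
  set t : ℝ := 1 / (N * (N - 1)) with ht
  have htpos : 0 < t := by
    have : 0 < N - 1 := by linarith
    positivity
  refine ⟨fun i j => if i = j then 0 else 2 * t, ⟨⟨fun i => EuclideanSpace.single i (Real.sqrt t),
    ?_⟩, ?_⟩, ?_⟩
  · intro i j
    by_cases h : i = j
    · simp [h]
    · simp only [if_neg h]
      rw [EuclideanSpace.norm_sq_eq]
      have h1 : ∀ k, ‖(EuclideanSpace.single i (Real.sqrt t) -
          EuclideanSpace.single j (Real.sqrt t) : EuclideanSpace ℝ V) k‖ ^ 2 =
          (if k = i then t else 0) + (if k = j then t else 0) := by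
        intro k
        by_cases hi : k = i
        · have hj : k ≠ j := fun h' => h (hi.symm.trans h')
          subst hi
          simp [hj, Real.sq_sqrt htpos.le]
        · by_cases hj : k = j
          · subst hj
            simp [hi, Real.sq_sqrt htpos.le]
          · simp [hi, hj]
      simp_rw [h1, sum_add_distrib]
      simp
      ring
  · intro i j k
    by_cases h1 : i = k
    · subst h1
      simp only [if_true]
      split_ifs <;> linarith
    · by_cases h2 : i = j
      · subst h2
        simp [h1]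
      · simp only [h1, h2, if_false]
        split_ifs <;> linarith
  · have h1 : ∀ i : V, ∑ j, (if i = j then (0:ℝ) else 2 * t) = (N - 1) * (2 * t) := by
      intro i
      have h2 : ∀ j : V, (if i = j then (0:ℝ) else 2 * t) = 2 * t - (if i = j then 2 * t else 0) := by
        intro j; split_ifs <;> simp
      simp_rw [h2, sum_sub_distrib]
      simp [hN]
      ring
    simp_rw [h1]
    rw [sum_const, card_univ, nsmul_eq_mul, ← hN, ht]
    have : N - 1 ≠ 0 := by linarith
    have : N ≠ 0 := by linarith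
    field_simp

/-- from every feasible solution to the relaxation -/
lemma phi_le_gl [Nontrivial G] {c : G → ℝ} {B : ℝ} (hB : 0 < B)
    (h : ∀ d : G → G → ℝ, IsNegTypeSemimetric d → (∑ i, ∑ j, d i j) / 2 = 1 →
      phi (fun x y => c (x - y)) ≤ B * obj c d) :
    phi (fun x y => c (x - y)) ≤ B * glValue (fun x y => c (x - y)) := by
  rw [← div_le_iff₀' hB]
  apply le_csInf
  · obtain ⟨d, hd, h1⟩ := exists_feasible G
    exact ⟨_, d, hd, h1, rfl⟩
  · rintro r ⟨d, hd, h1, rfl⟩
    rw [div_le_iff₀' hB]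
    exact h d hd h1

lemma clog_mul_le (a : ℕ) (M : ℕ) :
    Nat.clog 2 (2 ^ a * M) ≤ a + Nat.clog 2 M := by
  apply Nat.clog_le_of_le_pow
  rw [pow_add]
  exact Nat.mul_le_mul_left _ (Nat.le_pow_clog (by norm_num) _)

/-- **Main theorem.** -/
theorem main [Nontrivial G] {c : G → ℝ} (hc : ∀ z, 0 ≤ c z) (hs : ∀ z, c (-z) = c z) :
    phi (fun x y => c (x - y)) ≤
      1100 * (1 + Real.log (1 + min ((univ.filter fun z => c z ≠ 0).card : ℝ)
        (min (AddMonoid.exponent G : ℝ) (Real.log (Fintype.card G))))) *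
        glValue (fun x y => c (x - y)) := by
  have hpi : π < 3.15 := Real.pi_lt_d2
  have hpi0 := Real.pi_pos
  have hn2 : (2 : ℝ) ≤ Fintype.card G := by exact_mod_cast Fintype.one_lt_card (α := G)
  have hlogn : 0 < Real.log (Fintype.card G) := Real.log_pos (by linarith)
  have hobj : ∀ d : G → G → ℝ, IsNegTypeSemimetric d → 0 ≤ obj c d := by
    intro d hd
    obtain ⟨⟨v, hv⟩, -⟩ := hd
    unfold obj
    have : 0 ≤ ∑ i, ∑ j, c (i - j) * d i j :=
      sum_nonneg fun i _ => sum_nonneg fun j _ => mul_nonneg (hc _) (by rw [hv]; positivity)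
    positivity
  set M := (univ.filter fun z => c z ≠ 0).card with hMdef
  set X := min (M : ℝ) (min (AddMonoid.exponent G : ℝ) (Real.log (Fintype.card G))) with hX
  have hX0 : 0 ≤ X := by
    rw [hX]
    exact le_min (by positivity) (le_min (by positivity) hlogn.le)
  have hlogX : 0 ≤ Real.log (1 + X) := Real.log_nonneg (by linarith)
  apply phi_le_gl (by positivity)
  intro d hd h1
  have hob := hobj d hd
  rcases min_choice (M : ℝ) (min (AddMonoid.exponent G : ℝ) (Real.log (Fintype.card G))) with h | h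
  · -- support
    rw [← hX] at h
    rcases Nat.eq_zero_or_pos M with hM0 | hM0
    · have hz : ∀ z, c z = 0 := by
        intro z
        by_contra hcz
        have h0 : (univ.filter fun z => c z ≠ 0) = ∅ := card_eq_zero.1 hM0
        have h00 : z ∈ (univ.filter fun z => c z ≠ 0) := mem_filter.2 ⟨mem_univ _, hcz⟩
        rw [h0] at h00
        simp at h00
      refine (phi_eq_zero_of_c hz).trans ?_
      positivity
    · have h2 := bound_support hc hs hd h1 M hM0 le_rfl
      refine h2.trans ?_
      apply mul_le_mul_of_nonneg_right _ hob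
      have h3 : (Nat.clog 2 (4 * M) : ℝ) ≤ 2 + Nat.clog 2 M := by
        have := clog_mul_le 2 M
        exact_mod_cast this
      have h4 := logb_bound M hM0
      have hM' : (1 : ℝ) ≤ M := by exact_mod_cast hM0
      have h5 : Real.log M ≤ Real.log (1 + X) := by
        apply Real.log_le_log (by positivity)
        rw [h]; linarith
      have h6 : (Nat.clog 2 (4 * M) : ℝ) + 2 ≤ 5 * (1 + Real.log (1 + X)) := by linarith
      have h7 : 8 * π / 3 ≤ 9 := by linarith
      calc 8 * π / 3 * (Nat.clog 2 (4 * M) + 2) ≤ 9 * (5 * (1 + Real.log (1 + X))) :=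
            mul_le_mul h7 h6 (by positivity) (by norm_num)
        _ ≤ _ := by nlinarith
  · rw [← hX] at h
    rcases min_choice (AddMonoid.exponent G : ℝ) (Real.log (Fintype.card G)) with h' | h'
    · -- exponent
      rw [h'] at h
      have h2 := bound_exponent hc hs hd h1
      refine h2.trans ?_
      apply mul_le_mul_of_nonneg_right _ hob
      have he1 : 1 ≤ AddMonoid.exponent G :=
        Nat.one_le_iff_ne_zero.2 AddMonoid.exponent_ne_zero_of_finite
      have h4 := logb_bound (AddMonoid.exponent G) he1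
      have he' : (1 : ℝ) ≤ AddMonoid.exponent G := by exact_mod_cast he1
      have h5 : Real.log (AddMonoid.exponent G) ≤ Real.log (1 + X) := by
        apply Real.log_le_log (by positivity)
        rw [h]; linarith
      have h6 : (Nat.clog 2 (AddMonoid.exponent G) : ℝ) ≤ 2 * (1 + Real.log (1 + X)) := by linarith
      calc 2 * π * Nat.clog 2 (AddMonoid.exponent G) ≤ 7 * (2 * (1 + Real.log (1 + X))) :=
            mul_le_mul (by linarith) h6 (by positivity) (by norm_num)
        _ ≤ _ := by nlinarith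
    · -- order
      rw [h'] at h
      set L := Real.log (Fintype.card G) with hL
      set m := ⌈250 * (1 + L) ^ 2⌉₊ with hm
      have hmle : 250 * (1 + L) ^ 2 ≤ m := Nat.le_ceil _
      have hm1 : 1 ≤ m := by
        rw [hm]
        apply Nat.one_le_ceil_iff.2
        positivity
      have hlog2 : Real.log (2 * Fintype.card G) ≤ 1 + L := by
        rw [Real.log_mul (by norm_num) (by positivity)]
        have := Real.log_two_lt_d9
        linarith
      have he : Real.exp 1 < 2.7182818286 := Real.exp_one_lt_d9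
      have hmcond : 4 * (8 * (1 + Real.exp 1) * L) * Real.log (2 * Fintype.card G) ≤ m := by
        refine le_trans ?_ hmle
        have h3 : 4 * (8 * (1 + Real.exp 1) * L) ≤ 120 * (1 + L) := by nlinarith
        calc 4 * (8 * (1 + Real.exp 1) * L) * Real.log (2 * Fintype.card G)
            ≤ 120 * (1 + L) * (1 + L) :=
              mul_le_mul h3 hlog2 (Real.log_nonneg (by linarith)) (by positivity)
          _ ≤ _ := by nlinarith [sq_nonneg (1 + L)]
      have h2 := bound_card hc hs hd h1 m hmcond hm1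
      refine h2.trans ?_
      apply mul_le_mul_of_nonneg_right _ hob
      have hmub : (m : ℝ) ≤ 2 ^ 8 * (1 + L) ^ 2 := by
        have := Nat.ceil_lt_add_one (R := ℝ) (a := 250 * (1 + L) ^ 2) (by positivity)
        have h3 : (1 : ℝ) ≤ (1 + L) ^ 2 := by nlinarith
        have h4 : (m : ℝ) < 250 * (1 + L) ^ 2 + 1 := this
        linarith
      have h3 : (Nat.clog 2 (8 * m) : ℝ) ≤ 12 + 2 * (1 + 2 * Real.log (1 + L)) := by
        -- `8 m ≤ 2^11 (1+L)^2 ≤ 2^11 q^2` with `q = ⌈1+L⌉`
        set q := ⌈1 + L⌉₊ with hq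
        have hq1 : 1 ≤ q := by
          rw [hq]
          apply Nat.one_le_ceil_iff.2
          positivity
        have hqle : 1 + L ≤ q := Nat.le_ceil _
        have h4 : 8 * m ≤ 2 ^ (11 + 2 * Nat.clog 2 q) := by
          have h5 : ((8 * m : ℕ) : ℝ) ≤ 2 ^ 11 * (q : ℝ) ^ 2 := by
            push_cast
            have : (1 + L) ^ 2 ≤ (q : ℝ) ^ 2 := pow_le_pow_left₀ (by positivity) hqle 2
            nlinarith
          have h6 : 8 * m ≤ 2 ^ 11 * q ^ 2 := by exact_mod_cast h5
          have h7 : q ≤ 2 ^ Nat.clog 2 q := Nat.le_pow_clog (by norm_num) _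
          calc 8 * m ≤ 2 ^ 11 * q ^ 2 := h6
            _ ≤ 2 ^ 11 * (2 ^ Nat.clog 2 q) ^ 2 :=
                Nat.mul_le_mul_left _ (Nat.pow_le_pow_left h7 2)
            _ = _ := by rw [← pow_mul, ← pow_add]; ring_nf
        have h5 : Nat.clog 2 (8 * m) ≤ 11 + 2 * Nat.clog 2 q := Nat.clog_le_of_le_pow h4
        have h6 := logb_bound q hq1
        have h7 : Real.log q ≤ Real.log (1 + L) + 1 := by
          have h8 : (q : ℝ) ≤ Real.exp 1 * (1 + L) := by
            have h9 : (q : ℝ) < (1 + L) + 1 := Nat.ceil_lt_add_one (by positivity)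
            have h10 : 2 ≤ Real.exp 1 := by
              have := Real.add_one_le_exp (1 : ℝ); linarith
            nlinarith
          have h11 := Real.log_le_log (by positivity) h8
          rw [Real.log_mul (by positivity) (by positivity), Real.log_exp] at h11
          linarith
        have h5' : (Nat.clog 2 (8 * m) : ℝ) ≤ 11 + 2 * Nat.clog 2 q := by exact_mod_cast h5
        have h8 : (q : ℝ) ≤ 2 * (1 + L) := by
          have h9 : (q : ℝ) < (1 + L) + 1 := Nat.ceil_lt_add_one (by positivity)
          linarith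
        have h9 : Nat.clog 2 q ≤ 1 + Nat.clog 2 q := by omega
        -- a sharper estimate for `clog q` via `log`
        have h10 : (Nat.clog 2 q : ℝ) ≤ 3 / 2 + 2 * Real.log (1 + L) := by
          rcases Nat.eq_zero_or_pos (Nat.clog 2 q) with hz | hz
          · rw [hz]
            have : 0 ≤ Real.log (1 + L) := Real.log_nonneg (by linarith)
            push_cast
            linarith
          · have hlt : 2 ^ (Nat.clog 2 q - 1) < q := by
              apply Nat.pow_pred_clog_lt_self (by norm_num)
              by_contra hcon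
              have : q = 1 := by omega
              rw [this] at hz
              simp at hz
            have hlt2 : 2 ^ (Nat.clog 2 q - 1) + 1 ≤ q := hlt
            have hlt3 : (2 : ℝ) ^ (Nat.clog 2 q - 1) ≤ 1 + L := by
              have h12 : ((2 : ℝ) ^ (Nat.clog 2 q - 1)) + 1 ≤ q := by exact_mod_cast hlt2
              have h13 : (q : ℝ) < (1 + L) + 1 := Nat.ceil_lt_add_one (by positivity)
              linarith
            have h12 := Real.log_le_log (by positivity) hlt3
            rw [Real.log_pow] at h12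
            have h13 : ((Nat.clog 2 q - 1 : ℕ) : ℝ) = (Nat.clog 2 q : ℝ) - 1 := by
              rw [Nat.cast_sub hz]; simp
            rw [h13] at h12
            have h14 : 1 / 2 ≤ Real.log 2 := by
              have := Real.log_two_gt_d9
              linarith
            have h15 : (0 : ℝ) ≤ (Nat.clog 2 q : ℝ) - 1 := by
              rw [← h13]; positivity
            nlinarith
        linarith
      have h4 : Real.log (1 + L) ≤ Real.log (1 + X) := by rw [h]
      have h5 : (Nat.clog 2 (8 * m) : ℝ) + 2 ≤ 16 * (1 + Real.log (1 + X)) := by linarith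
      have h6 : 64 * π / 3 ≤ 67.2 := by linarith
      calc 64 * π / 3 * (Nat.clog 2 (8 * m) + 2) ≤ 67.2 * (16 * (1 + Real.log (1 + X))) :=
            mul_le_mul h6 h5 (by positivity) (by norm_num)
        _ ≤ _ := by nlinarith

end Vale.Agent.P318.H867
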