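import Vale.Agent.P318.H867.Sensitivity

/-! Random sampling: every translation-invariant capacity on a finite abelian group of order `n`
is dominated (spectrally, up to a factor 4) by one with `O(log² n)` generators. -/

open Finset
open scoped ComplexConjugate Real

set_option linter.unusedSectionVars false

namespace Vale.Agent.P318.H867

section prob
variable {α : Type*} [Fintype α] [DecidableEq α]

lemma sum_prod_mul (p g : α → ℝ) (hp : ∑ a, p a = 1) (m : ℕ) (j : Fin m) :
    ∑ f : Fin m → α, (∏ i, p (f i)) * g (f j) = ∑ a, p a * g a := by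
  have h1 : ∀ f : Fin m → α, (∏ i, p (f i)) * g (f j) =
      ∏ i, (p (f i) * if i = j then g (f i) else 1) := by
    intro f
    rw [prod_mul_distrib, prod_ite_eq' univ j (fun i => g (f i))]
    simp
  simp_rw [h1]
  have h2 := (Finset.prod_univ_sum (fun _ : Fin m => (univ : Finset α))
    (fun i a => p a * if i = j then g a else 1)).symm
  rw [Fintype.piFinset_univ] at h2
  rw [h2]
  rw [← mul_prod_erase univ _ (mem_univ j)]
  have h3 : ∏ i ∈ univ.erase j, ∑ a, (p a * if i = j then g a else 1) = 1 := by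
    apply prod_eq_one
    intro i hi
    simp [ne_of_mem_erase hi, hp]
  rw [h3]
  simp

lemma sum_prod_sum (p g : α → ℝ) (hp : ∑ a, p a = 1) (m : ℕ) :
    ∑ f : Fin m → α, (∏ i, p (f i)) * ∑ j, g (f j) = m * ∑ a, p a * g a := by
  simp_rw [mul_sum]
  rw [sum_comm]
  simp_rw [sum_prod_mul p g hp m]
  simp [mul_sum]

lemma sum_prod_exp (p X : α → ℝ) (m : ℕ) (t : ℝ) :
    ∑ f : Fin m → α, (∏ i, p (f i)) * Real.exp (t - ∑ j, X (f j)) =
      Real.exp t * (∑ a, p a * Real.exp (-(X a))) ^ m := by
  rw [Fintype.sum_pow, mul_sum]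
  apply sum_congr rfl; intro f _
  rw [prod_mul_distrib, ← Real.exp_sum, sub_eq_add_neg, Real.exp_add, sum_neg_distrib]
  ring

lemma exp_neg_le {x : ℝ} (h0 : 0 ≤ x) (h1 : x ≤ 1) : Real.exp (-x) ≤ 1 - x / 2 := by
  have hconv := convexOn_exp.2 (Set.mem_univ (0 : ℝ)) (Set.mem_univ (-1 : ℝ))
    (sub_nonneg.2 h1) h0 (by ring)
  simp only [smul_eq_mul, mul_zero, zero_add, mul_neg, mul_one, Real.exp_zero] at hconv
  have h2 : Real.exp (-1) ≤ 1 / 2 := by
    rw [Real.exp_neg]
    have := Real.add_one_le_exp (1 : ℝ)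
    rw [inv_eq_one_div]
    apply one_div_le_one_div_of_le (by norm_num)
    linarith
  nlinarith

end prob

variable {G : Type*} [AddCommGroup G] [Fintype G] [DecidableEq G]

/-- **Sparsification.** -/
theorem exists_sparsifier [Nontrivial G] {c : G → ℝ} (hc : ∀ z, 0 ≤ c z)
    (hpos : ∀ χ : AddChar G ℂ, χ ≠ 0 → 0 < Lc c χ) {σ : G → ℝ} (hσ0 : ∀ z, 0 ≤ σ z)
    (hσ : ∀ χ z, Q χ z ≤ σ z * Lc c χ) {D : ℝ} (hD : ∑ z, c z * σ z ≤ D)
    {r : G → ℝ} (hr0 : ∀ z, 0 ≤ r z) (hre : ∀ z, r (-z) = r z) (hrpos : 0 < ∑ z, c z * r z)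
    (m : ℕ) (hm : 4 * D * Real.log (2 * Fintype.card G) ≤ m) :
    ∃ c' : G → ℝ, (∀ z, 0 ≤ c' z) ∧ (∀ z, c' (-z) = c' z) ∧
      (univ.filter fun z => c' z ≠ 0).card ≤ 2 * m ∧
      (∀ χ, Lc c χ ≤ 4 * Lc c' χ) ∧ ∑ z, c' z * r z ≤ 2 * ∑ z, c z * r z := by
  have hn : (0 : ℝ) < Fintype.card G := by
    have := Fintype.card_pos (α := G); positivity
  have hn1 : (1 : ℝ) ≤ Fintype.card G := by
    have := Fintype.card_pos (α := G); exact_mod_cast this
  set S0 := ∑ z, c z * σ z with hS0
  have hσc : ∀ z, 0 ≤ c z * σ z := fun z => mul_nonneg (hc z) (hσ0 z)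
  -- `S0` is positive
  obtain ⟨a, ha⟩ := exists_ne (0 : G)
  obtain ⟨ψ, hψ⟩ := AddChar.exists_apply_ne_zero.2 ha
  have hψ0 : ψ ≠ 0 := by
    rintro rfl
    exact hψ (by simp)
  have hS0pos : 0 < S0 := by
    obtain ⟨z, -, hz⟩ : ∃ z ∈ univ, 0 < c z * Q ψ z := by
      by_contra hcon
      push Not at hcon
      exact absurd (hpos ψ hψ0) (not_lt.2 (sum_nonpos hcon))
    have hcz : 0 < c z := by
      rcases (hc z).lt_or_eq with h | h
      · exact h
      · rw [← h] at hz; simp at hz
    have hQz : 0 < Q ψ z := by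
      rcases (Q_nonneg ψ z).lt_or_eq with h | h
      · exact h
      · rw [← h] at hz; simp at hz
    have hσz : 0 < σ z := by
      rcases (hσ0 z).lt_or_eq with h | h
      · exact h
      · have := hσ ψ z
        rw [← h, zero_mul] at this
        linarith
    calc 0 < c z * σ z := mul_pos hcz hσz
      _ ≤ S0 := single_le_sum (fun z _ => hσc z) (mem_univ z)
  have hlog : 0 < Real.log (2 * Fintype.card G) := Real.log_pos (by linarith)
  have hmS : 4 * S0 * Real.log (2 * Fintype.card G) ≤ m := by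
    refine le_trans ?_ hm
    apply mul_le_mul_of_nonneg_right _ hlog.le
    linarith
  have hmpos : (0 : ℝ) < m := lt_of_lt_of_le (by positivity) hmS
  -- the sampling distribution
  let p : G → ℝ := fun z => c z * σ z / S0
  have hp0 : ∀ z, 0 ≤ p z := fun z => div_nonneg (hσc z) hS0pos.le
  have hp1 : ∑ z, p z = 1 := by
    simp only [p]
    rw [← sum_div, ← hS0, div_self hS0pos.ne']
  let X : AddChar G ℂ → G → ℝ := fun χ z => Q χ z / (σ z * Lc c χ)
  have hX0 : ∀ χ z, 0 ≤ X χ z := fun χ z =>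
    div_nonneg (Q_nonneg _ _) (mul_nonneg (hσ0 z) (Lc_nonneg hc χ))
  have hX1 : ∀ χ z, X χ z ≤ 1 := by
    intro χ z
    apply div_le_one_of_le₀ (hσ χ z) (mul_nonneg (hσ0 z) (Lc_nonneg hc χ))
  have hEX : ∀ χ : AddChar G ℂ, χ ≠ 0 → ∑ z, p z * X χ z = 1 / S0 := by
    intro χ hχ
    have hL := hpos χ hχ
    have h1 : ∀ z, p z * X χ z = c z * Q χ z / (S0 * Lc c χ) := by
      intro z
      simp only [p, X]
      rcases (hσ0 z).lt_or_eq with h | h
      · field_simp
      · have h2 : Q χ z = 0 := by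
          have h3 := hσ χ z
          rw [← h, zero_mul] at h3
          exact le_antisymm h3 (Q_nonneg _ _)
        simp [h2]
    simp_rw [h1]
    rw [← sum_div]
    change Lc c χ / _ = _
    field_simp
  have hexp : ∀ χ : AddChar G ℂ, χ ≠ 0 →
      ∑ f : Fin m → G, (∏ i, p (f i)) * Real.exp (m / (4 * S0) - ∑ j, X χ (f j)) ≤
        1 / (2 * Fintype.card G) := by
    intro χ hχ
    rw [sum_prod_exp]
    have h1 : ∑ z, p z * Real.exp (-(X χ z)) ≤ Real.exp (-(1 / (2 * S0))) := by
      calc ∑ z, p z * Real.exp (-(X χ z)) ≤ ∑ z, p z * (1 - X χ z / 2) :=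
            sum_le_sum fun z _ => mul_le_mul_of_nonneg_left (exp_neg_le (hX0 χ z) (hX1 χ z)) (hp0 z)
        _ = 1 - (1 / S0) / 2 := by
            rw [← hEX χ hχ, sum_div]
            simp_rw [mul_sub, mul_one, sum_sub_distrib, hp1]
            congr 1
            apply sum_congr rfl; intro z _; ring
        _ = -(1 / (2 * S0)) + 1 := by field_simp; ring
        _ ≤ _ := Real.add_one_le_exp _
    have h2 : 0 ≤ ∑ z, p z * Real.exp (-(X χ z)) :=
      sum_nonneg fun z _ => mul_nonneg (hp0 z) (Real.exp_pos _).le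
    calc Real.exp (m / (4 * S0)) * (∑ z, p z * Real.exp (-(X χ z))) ^ m
        ≤ Real.exp (m / (4 * S0)) * (Real.exp (-(1 / (2 * S0)))) ^ m := by
          apply mul_le_mul_of_nonneg_left _ (Real.exp_pos _).le
          exact pow_le_pow_left₀ h2 h1 m
      _ = Real.exp (-(m / (4 * S0))) := by
          rw [← Real.exp_nat_mul, ← Real.exp_add]
          congr 1
          field_simp
          ring
      _ ≤ Real.exp (-(Real.log (2 * Fintype.card G))) := by
          apply Real.exp_le_exp.2
          apply neg_le_neg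
          rw [le_div_iff₀ (by positivity)]
          linarith
      _ = 1 / (2 * Fintype.card G) := by
          rw [Real.exp_neg, Real.exp_log (by positivity), one_div]
  -- expected cost
  let cost : (Fin m → G) → ℝ := fun f => ∑ j, S0 / (m * σ (f j)) * r (f j)
  have hcost : ∑ f : Fin m → G, (∏ i, p (f i)) * cost f ≤ ∑ z, c z * r z := by
    have h1 := sum_prod_sum p (fun z => S0 / (m * σ z) * r z) hp1 m
    simp only [cost]
    rw [h1, mul_sum]
    apply sum_le_sum
    intro z _
    rcases (hσ0 z).lt_or_eq with h | h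
    · simp only [p]
      apply le_of_eq
      field_simp
    · simp only [p, ← h]
      simp
      exact mul_nonneg (hc z) (hr0 z)
  -- choice of a sample
  let F : (Fin m → G) → ℝ := fun f =>
    ∑ χ ∈ univ.erase (0 : AddChar G ℂ), Real.exp (m / (4 * S0) - ∑ j, X χ (f j)) +
      cost f / (2 * ∑ z, c z * r z)
  have hFsum : ∑ f : Fin m → G, (∏ i, p (f i)) * F f ≤
      (Fintype.card G - 1) * (1 / (2 * Fintype.card G)) + 1 / 2 := by
    simp only [F]
    simp_rw [mul_add, sum_add_distrib]
    apply add_le_add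
    · simp_rw [mul_sum]
      rw [sum_comm]
      calc _ ≤ ∑ χ ∈ univ.erase (0 : AddChar G ℂ), 1 / (2 * (Fintype.card G : ℝ)) :=
            sum_le_sum fun χ hχ => hexp χ (ne_of_mem_erase hχ)
        _ = _ := by
            rw [sum_const, card_erase_of_mem (mem_univ _), card_univ, AddChar.card_eq, nsmul_eq_mul,
              Nat.cast_sub Fintype.card_pos]
            simp
    · have h1 : ∀ f : Fin m → G, (∏ i, p (f i)) * (cost f / (2 * ∑ z, c z * r z)) =
          ((∏ i, p (f i)) * cost f) / (2 * ∑ z, c z * r z) := fun f => by ring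
      simp_rw [h1]
      rw [← sum_div, div_le_iff₀ (by positivity)]
      linarith
  have hPsum : ∑ f : Fin m → G, ∏ i, p (f i) = 1 := by
    rw [← Fintype.sum_pow, hp1, one_pow]
  have hlt : (Fintype.card G - 1) * (1 / (2 * Fintype.card G)) + 1 / 2 < (1 : ℝ) := by
    have : ((Fintype.card G : ℝ) - 1) * (1 / (2 * Fintype.card G)) < 1 / 2 := by
      rw [mul_one_div, div_lt_div_iff₀ (by positivity) (by norm_num)]
      linarith
    linarith
  obtain ⟨f, -, hf⟩ := exists_le_of_weighted univ (fun f : Fin m → G => ∏ i, p (f i)) F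
    (fun f _ => prod_nonneg fun i _ => hp0 _)
    ((Fintype.card G - 1) * (1 / (2 * Fintype.card G)) + 1 / 2) (by rw [hPsum]; exact one_pos)
    (by rw [hPsum, mul_one]; exact hFsum)
  have hF1 : F f < 1 := lt_of_le_of_lt hf hlt
  have hcostnn : 0 ≤ cost f := by
    apply sum_nonneg
    intro j _
    exact mul_nonneg (div_nonneg hS0pos.le (mul_nonneg hmpos.le (hσ0 _))) (hr0 _)
  have hA : ∀ χ : AddChar G ℂ, χ ≠ 0 → m / (4 * S0) ≤ ∑ j, X χ (f j) := by
    intro χ hχ
    have h1 : Real.exp (m / (4 * S0) - ∑ j, X χ (f j)) ≤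
        ∑ χ ∈ univ.erase (0 : AddChar G ℂ), Real.exp (m / (4 * S0) - ∑ j, X χ (f j)) :=
      single_le_sum (f := fun χ => Real.exp (m / (4 * S0) - ∑ j, X χ (f j)))
        (fun χ _ => (Real.exp_pos _).le) (mem_erase.2 ⟨hχ, mem_univ _⟩)
    have h2 : 0 ≤ cost f / (2 * ∑ z, c z * r z) := by positivity
    have h3 : Real.exp (m / (4 * S0) - ∑ j, X χ (f j)) < 1 := by
      simp only [F] at hF1
      linarith
    rw [Real.exp_lt_one_iff] at h3
    linarith
  have hB : cost f ≤ 2 * ∑ z, c z * r z := by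
    have h1 : 0 ≤ ∑ χ ∈ univ.erase (0 : AddChar G ℂ),
        Real.exp (m / (4 * S0) - ∑ j, X χ (f j)) := sum_nonneg fun χ _ => (Real.exp_pos _).le
    have h2 : cost f / (2 * ∑ z, c z * r z) < 1 := by
      simp only [F] at hF1
      linarith
    rw [div_lt_one (by positivity)] at h2
    exact h2.le
  -- the new capacity
  let c0 : G → ℝ := fun z => ∑ j, if f j = z then S0 / (m * σ z) else 0
  have hc0 : ∀ z, 0 ≤ c0 z := by
    intro z
    apply sum_nonneg
    intro j _
    split_ifs
    · exact div_nonneg hS0pos.le (mul_nonneg hmpos.le (hσ0 _))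
    · exact le_rfl
  have hsum0 : ∀ h : G → ℝ, ∑ z, c0 z * h z = ∑ j, S0 / (m * σ (f j)) * h (f j) := by
    intro h
    simp only [c0]
    simp_rw [sum_mul]
    rw [sum_comm]
    apply sum_congr rfl; intro j _
    simp
  have hsymm : ∀ h : G → ℝ, (∀ z, h (-z) = h z) →
      ∑ z, (c0 z + c0 (-z)) / 2 * h z = ∑ z, c0 z * h z := by
    intro h hh
    have h1 : ∑ z, c0 (-z) * h z = ∑ z, c0 z * h z := by
      rw [← Equiv.sum_comp (Equiv.neg G) (fun z => c0 (-z) * h z)]
      apply sum_congr rfl; intro z _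
      simp [hh]
    have h2 : ∀ z, (c0 z + c0 (-z)) / 2 * h z = (c0 z * h z + c0 (-z) * h z) / 2 := fun z => by ring
    simp_rw [h2]
    rw [← sum_div, sum_add_distrib, h1]
    ring
  refine ⟨fun z => (c0 z + c0 (-z)) / 2, ?_, ?_, ?_, ?_, ?_⟩
  · intro z
    have := hc0 z
    have := hc0 (-z)
    positivity
  · intro z
    simp only [neg_neg]
    ring
  · have hsub : (univ.filter fun z => (c0 z + c0 (-z)) / 2 ≠ 0) ⊆
        (univ.image f) ∪ (univ.image fun j => - f j) := by
      intro z hz
      rw [mem_filter] at hz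
      rw [mem_union]
      by_contra hcon
      push Not at hcon
      have h1 : c0 z = 0 := by
        apply sum_eq_zero
        intro j _
        rw [if_neg]
        rintro rfl
        exact hcon.1 (mem_image_of_mem _ (mem_univ j))
      have h2 : c0 (-z) = 0 := by
        apply sum_eq_zero
        intro j _
        rw [if_neg]
        intro h3
        apply hcon.2
        rw [mem_image]
        exact ⟨j, mem_univ _, by rw [h3, neg_neg]⟩
      exact hz.2 (by rw [h1, h2]; simp)
    calc _ ≤ ((univ.image f) ∪ (univ.image fun j => - f j)).card := card_le_card hsub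
      _ ≤ (univ.image f).card + (univ.image fun j => - f j).card := card_union_le _ _
      _ ≤ m + m := by
          apply add_le_add
          · refine card_image_le.trans ?_
            simp
          · refine card_image_le.trans ?_
            simp
      _ = 2 * m := by ring
  · intro χ
    by_cases hχ : χ = 0
    · rw [hχ, Lc_zero, Lc_zero, mul_zero]
    have h1 : Lc (fun z => (c0 z + c0 (-z)) / 2) χ = S0 / m * Lc c χ * ∑ j, X χ (f j) := by
      unfold Lc
      rw [hsymm (Q χ) (Q_neg χ), hsum0]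
      change _ = S0 / m * Lc c χ * _
      rw [mul_sum]
      apply sum_congr rfl; intro j _
      simp only [X]
      have hL := hpos χ hχ
      rcases (hσ0 (f j)).lt_or_eq with h | h
      · field_simp
      · simp [← h]
    rw [h1]
    have hL := hpos χ hχ
    have h2 := hA χ hχ
    calc Lc c χ = 4 * (S0 / m * Lc c χ * (m / (4 * S0))) := by field_simp
      _ ≤ 4 * (S0 / m * Lc c χ * ∑ j, X χ (f j)) := by
          apply mul_le_mul_of_nonneg_left _ (by norm_num)
          apply mul_le_mul_of_nonneg_left h2 (by positivity)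
  · rw [hsymm r hre, hsum0]
    exact hB

end Vale.Agent.P318.H867
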