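import Vale.Agent.P318.H867.Support

/-! Total sensitivity of a translation-invariant capacity on a finite abelian group is
`O(log n)`. -/

open Finset
open scoped ComplexConjugate Real

set_option linter.unusedSectionVars false

namespace Vale.Agent.P318.H867

variable {G : Type*} [AddCommGroup G] [Fintype G] [DecidableEq G]

lemma Q_parallelogram (χ ψ : AddChar G ℂ) (z : G) :
    Q (χ + ψ) z + Q (χ - ψ) z ≤ 2 * Q χ z + 2 * Q ψ z := by
  have h1 : ((χ + ψ) z).re + ((χ - ψ) z).re = 2 * ((χ z).re * (ψ z).re) := by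
    rw [AddChar.add_apply, AddChar.sub_apply, AddChar.map_neg_eq_conj, Complex.mul_re,
      Complex.mul_re, Complex.conj_re, Complex.conj_im]
    ring
  have hre : ∀ χ : AddChar G ℂ, (χ z).re ≤ 1 := fun χ => by
    have := Complex.re_le_norm (χ z)
    rwa [χ.norm_apply] at this
  rw [Q_eq, Q_eq, Q_eq, Q_eq]
  nlinarith [mul_nonneg (sub_nonneg.2 (hre χ)) (sub_nonneg.2 (hre ψ))]

lemma Lc_parallelogram {c : G → ℝ} (hc : ∀ z, 0 ≤ c z) (χ ψ : AddChar G ℂ) :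
    Lc c (χ + ψ) + Lc c (χ - ψ) ≤ 2 * Lc c χ + 2 * Lc c ψ := by
  unfold Lc
  rw [← sum_add_distrib, mul_sum, mul_sum, ← sum_add_distrib]
  apply sum_le_sum
  intro z _
  have := mul_le_mul_of_nonneg_left (Q_parallelogram χ ψ z) (hc z)
  linarith

lemma Q_le_add (χ ψ : AddChar G ℂ) (z : G) : Q ψ z ≤ 2 * (Q χ z + Q (χ + ψ) z) := by
  have h1 : ‖1 - ψ z‖ ≤ ‖1 - χ z‖ + ‖1 - (χ + ψ) z‖ := by
    have h2 : ‖1 - ψ z‖ = ‖χ z * (1 - ψ z)‖ := by rw [norm_mul, χ.norm_apply, one_mul]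
    rw [h2, AddChar.add_apply]
    have h3 : χ z * (1 - ψ z) = -(1 - χ z) + (1 - χ z * ψ z) := by ring
    rw [h3]
    calc _ ≤ ‖-(1 - χ z)‖ + ‖1 - χ z * ψ z‖ := norm_add_le _ _
      _ = _ := by rw [norm_neg]
  unfold Q
  nlinarith [norm_nonneg (1 - ψ z), norm_nonneg (1 - χ z), norm_nonneg (1 - (χ + ψ) z),
    sq_nonneg (‖1 - χ z‖ - ‖1 - (χ + ψ) z‖)]

lemma Q_neg_char (ψ : AddChar G ℂ) (z : G) : Q (-ψ) z = Q ψ z := by
  rw [← Q_neg ψ z]
  unfold Q
  rw [AddChar.neg_apply]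

lemma Q_le_sub (χ ψ : AddChar G ℂ) (z : G) : Q ψ z ≤ 2 * (Q χ z + Q (χ - ψ) z) := by
  have := Q_le_add χ (-ψ) z
  rwa [Q_neg_char, ← sub_eq_add_neg] at this

lemma two_exp_le (x y : ℝ) : 2 * Real.exp ((x + y) / 2) ≤ Real.exp x + Real.exp y := by
  have h1 : Real.exp ((x + y) / 2) = Real.exp (x / 2) * Real.exp (y / 2) := by
    rw [← Real.exp_add]; ring_nf
  have h2 : Real.exp x = Real.exp (x / 2) ^ 2 := by rw [← Real.exp_nat_mul]; ring_nf
  have h3 : Real.exp y = Real.exp (y / 2) ^ 2 := by rw [← Real.exp_nat_mul]; ring_nf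
  rw [h1, h2, h3]
  nlinarith [sq_nonneg (Real.exp (x / 2) - Real.exp (y / 2))]

/-- Gibbs weights -/
noncomputable def gw (c : G → ℝ) (τ : ℝ) (χ : AddChar G ℂ) : ℝ := Real.exp (-(Lc c χ) / τ)

/-- partition function -/
noncomputable def Zf (c : G → ℝ) (τ : ℝ) : ℝ := ∑ χ : AddChar G ℂ, gw c τ χ

lemma gw_pos (c : G → ℝ) (τ : ℝ) (χ : AddChar G ℂ) : 0 < gw c τ χ := Real.exp_pos _

lemma one_le_Zf (c : G → ℝ) (τ : ℝ) : 1 ≤ Zf c τ := by
  unfold Zf
  have h1 : gw c τ 0 = 1 := by simp [gw, Lc_zero]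
  rw [← h1]
  exact single_le_sum (fun χ _ => (gw_pos c τ χ).le) (mem_univ _)

lemma Zf_le {c : G → ℝ} (hc : ∀ z, 0 ≤ c z) {τ : ℝ} (hτ : 0 < τ) : Zf c τ ≤ Fintype.card G := by
  unfold Zf
  calc ∑ χ : AddChar G ℂ, gw c τ χ ≤ ∑ χ : AddChar G ℂ, 1 := by
        apply sum_le_sum
        intro χ _
        unfold gw
        rw [Real.exp_le_one_iff]
        have := Lc_nonneg hc χ
        rw [neg_div]
        have : 0 ≤ Lc c χ / τ := by positivity
        linarith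
    _ = Fintype.card G := by simp

lemma gibbs_lower {c : G → ℝ} (hc : ∀ z, 0 ≤ c z) {τ : ℝ} (hτ : 0 < τ) {ψ : AddChar G ℂ}
    (hψ : Lc c ψ ≤ τ) (z : G) :
    Q ψ z * Zf c τ ≤ 2 * (1 + Real.exp 1) * ∑ χ, gw c τ χ * Q χ z := by
  set e := Real.exp 1 with he
  have hepos : 0 < e := Real.exp_pos 1
  have hw : ∀ χ, 2 * gw c τ χ ≤ e * (gw c τ (χ + ψ) + gw c τ (χ - ψ)) := by
    intro χ
    have h1 := two_exp_le (-(Lc c (χ + ψ)) / τ) (-(Lc c (χ - ψ)) / τ)
    have h2 : -(Lc c χ) / τ - 1 ≤ (-(Lc c (χ + ψ)) / τ + -(Lc c (χ - ψ)) / τ) / 2 := by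
      have h3 := Lc_parallelogram hc χ ψ
      rw [← add_div, div_div, div_sub_one hτ.ne', div_le_div_iff₀ hτ (by positivity)]
      nlinarith
    have h4 : gw c τ χ ≤ e * Real.exp ((-(Lc c (χ + ψ)) / τ + -(Lc c (χ - ψ)) / τ) / 2) := by
      unfold gw
      rw [he, ← Real.exp_add]
      apply Real.exp_le_exp.2
      linarith
    unfold gw at *
    nlinarith
  have h1 : ∀ χ, gw c τ χ * (Q ψ z / 2) ≤ gw c τ χ * Q χ z +
      e / 2 * (gw c τ (χ + ψ) * Q (χ + ψ) z + gw c τ (χ - ψ) * Q (χ - ψ) z) := by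
    intro χ
    have ha := Q_le_add χ ψ z
    have hb := Q_le_sub χ ψ z
    have hwp := (gw_pos c τ (χ + ψ)).le
    have hwm := (gw_pos c τ (χ - ψ)).le
    have hw0 := (gw_pos c τ χ).le
    have hq1 := Q_nonneg (χ + ψ) z
    have hq2 := Q_nonneg (χ - ψ) z
    rcases le_total (Q ψ z / 2) (Q χ z) with h | h
    · have h2 : gw c τ χ * (Q ψ z / 2) ≤ gw c τ χ * Q χ z := mul_le_mul_of_nonneg_left h hw0
      have h3 : 0 ≤ e / 2 * (gw c τ (χ + ψ) * Q (χ + ψ) z + gw c τ (χ - ψ) * Q (χ - ψ) z) := by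
        positivity
      linarith
    · set t := Q ψ z / 2 - Q χ z with ht
      have ht0 : 0 ≤ t := by linarith
      have h2 : gw c τ (χ + ψ) * t ≤ gw c τ (χ + ψ) * Q (χ + ψ) z :=
        mul_le_mul_of_nonneg_left (by linarith) hwp
      have h3 : gw c τ (χ - ψ) * t ≤ gw c τ (χ - ψ) * Q (χ - ψ) z :=
        mul_le_mul_of_nonneg_left (by linarith) hwm
      have h4 := mul_le_mul_of_nonneg_right (hw χ) ht0
      have h5 : gw c τ χ * (Q ψ z / 2) = gw c τ χ * Q χ z + gw c τ χ * t := by rw [ht]; ring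
      rw [h5]
      have h6 : e / 2 * (gw c τ (χ + ψ) * t + gw c τ (χ - ψ) * t) ≤
          e / 2 * (gw c τ (χ + ψ) * Q (χ + ψ) z + gw c τ (χ - ψ) * Q (χ - ψ) z) :=
        mul_le_mul_of_nonneg_left (add_le_add h2 h3) (by positivity)
      nlinarith
  have h2 := sum_le_sum (s := univ) fun χ _ => h1 χ
  have hp : ∑ χ : AddChar G ℂ, gw c τ (χ + ψ) * Q (χ + ψ) z = ∑ χ, gw c τ χ * Q χ z :=
    Equiv.sum_comp (Equiv.addRight ψ) (fun χ => gw c τ χ * Q χ z)
  have hm : ∑ χ : AddChar G ℂ, gw c τ (χ - ψ) * Q (χ - ψ) z = ∑ χ, gw c τ χ * Q χ z :=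
    Equiv.sum_comp (Equiv.subRight ψ) (fun χ => gw c τ χ * Q χ z)
  rw [← sum_mul, sum_add_distrib, ← mul_sum, sum_add_distrib, hp, hm] at h2
  change (Zf c τ) * _ ≤ _ at h2
  linarith

lemma gibbs_upper (c : G → ℝ) {τ : ℝ} (hτ : 0 < τ) :
    (∑ χ, gw c τ χ * Lc c χ) / (Zf c τ * τ) ≤
      2 * (Real.log (Zf c (2 * τ)) - Real.log (Zf c τ)) := by
  have hZ : 0 < Zf c τ := lt_of_lt_of_le one_pos (one_le_Zf c τ)
  have hZ2 : 0 < Zf c (2 * τ) := lt_of_lt_of_le one_pos (one_le_Zf c _)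
  set m := (∑ χ, gw c τ χ * Lc c χ) / (Zf c τ * τ) / 2 with hm
  have h1 : Zf c τ * Real.exp m ≤ Zf c (2 * τ) := by
    have h2 : ∀ χ, gw c τ χ * (Real.exp m * (1 + (Lc c χ / (2 * τ) - m))) ≤ gw c (2 * τ) χ := by
      intro χ
      have h3 : gw c (2 * τ) χ = gw c τ χ * (Real.exp m * Real.exp (Lc c χ / (2 * τ) - m)) := by
        unfold gw
        rw [← Real.exp_add, ← Real.exp_add]
        congr 1
        field_simp
        ring
      rw [h3]
      apply mul_le_mul_of_nonneg_left _ (gw_pos c τ χ).le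
      apply mul_le_mul_of_nonneg_left _ (Real.exp_pos _).le
      have := Real.add_one_le_exp (Lc c χ / (2 * τ) - m)
      linarith
    have h3 := sum_le_sum (s := univ) fun χ _ => h2 χ
    have h4 : ∑ χ, gw c τ χ * (Real.exp m * (1 + (Lc c χ / (2 * τ) - m))) =
        Zf c τ * Real.exp m := by
      have h5 : ∀ χ, gw c τ χ * (Real.exp m * (1 + (Lc c χ / (2 * τ) - m))) =
          Real.exp m * (1 - m) * gw c τ χ + Real.exp m / (2 * τ) * (gw c τ χ * Lc c χ) := by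
        intro χ
        field_simp
        ring
      simp_rw [h5]
      rw [sum_add_distrib, ← mul_sum, ← mul_sum]
      change Real.exp m * (1 - m) * Zf c τ + _ = _
      have h6 : ∑ χ, gw c τ χ * Lc c χ = 2 * m * (Zf c τ * τ) := by
        rw [hm]; field_simp
      rw [h6]
      field_simp
      ring
    rw [h4] at h3
    exact h3
  have h2 : m ≤ Real.log (Zf c (2 * τ)) - Real.log (Zf c τ) := by
    rw [← Real.log_div hZ2.ne' hZ.ne', Real.le_log_iff_exp_le (by positivity),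
      le_div_iff₀ hZ, mul_comm]
    exact h1
  linarith

/-- **Total sensitivity.** -/
theorem exists_sensitivity [Nontrivial G] {c : G → ℝ} (hc : ∀ z, 0 ≤ c z)
    (hpos : ∀ χ : AddChar G ℂ, χ ≠ 0 → 0 < Lc c χ) :
    ∃ σ : G → ℝ, (∀ z, 0 ≤ σ z) ∧ (∀ χ z, Q χ z ≤ σ z * Lc c χ) ∧
      ∑ z, c z * σ z ≤ 8 * (1 + Real.exp 1) * Real.log (Fintype.card G) := by
  have hne : (univ.erase (0 : AddChar G ℂ)).Nonempty := by
    obtain ⟨a, ha⟩ := exists_ne (0 : G)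
    obtain ⟨ψ, hψ⟩ := AddChar.exists_apply_ne_zero.2 ha
    refine ⟨ψ, mem_erase.2 ⟨?_, mem_univ _⟩⟩
    rintro rfl
    exact hψ (by simp)
  obtain ⟨ψ₀, hψ₀, hmin⟩ := exists_min_image (univ.erase (0 : AddChar G ℂ)) (Lc c) hne
  obtain ⟨ψ₁, hψ₁, hmax⟩ := exists_max_image (univ.erase (0 : AddChar G ℂ)) (Lc c) hne
  set l := Lc c ψ₀ with hl
  have hlpos : 0 < l := hpos ψ₀ (ne_of_mem_erase hψ₀)
  obtain ⟨J, hJ⟩ := pow_unbounded_of_one_lt (Lc c ψ₁ / l) (one_lt_two (α := ℝ))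
  have hJ' : Lc c ψ₁ ≤ l * 2 ^ J := by
    rw [div_lt_iff₀ hlpos] at hJ
    linarith
  set e := Real.exp 1 with he
  have hepos : 0 < e := Real.exp_pos 1
  have hτ : ∀ j : ℕ, 0 < l * 2 ^ j := fun j => by positivity
  have hZpos : ∀ j : ℕ, 0 < Zf c (l * 2 ^ j) := fun j => lt_of_lt_of_le one_pos (one_le_Zf c _)
  let S : ℕ → G → ℝ := fun j z => (∑ χ, gw c (l * 2 ^ j) χ * Q χ z) /
    (Zf c (l * 2 ^ j) * (l * 2 ^ j))
  have hS : ∀ j z, 0 ≤ S j z := fun j z => by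
    apply div_nonneg
    · exact sum_nonneg fun χ _ => mul_nonneg (gw_pos _ _ _).le (Q_nonneg _ _)
    · exact (mul_pos (hZpos j) (hτ j)).le
  refine ⟨fun z => 4 * (1 + e) * ∑ j ∈ range (J + 1), S j z, ?_, ?_, ?_⟩
  · intro z
    exact mul_nonneg (by positivity) (sum_nonneg fun j _ => hS j z)
  · intro ψ z
    by_cases hψ : ψ = 0
    · rw [hψ, Q_zero, Lc_zero, mul_zero]
    have hψL : l ≤ Lc c ψ := hmin ψ (mem_erase.2 ⟨hψ, mem_univ _⟩)
    have hex : ∃ j, Lc c ψ ≤ l * 2 ^ j := ⟨J, (hmax ψ (mem_erase.2 ⟨hψ, mem_univ _⟩)).trans hJ'⟩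
    classical
    set j := Nat.find hex with hj
    have hj1 : Lc c ψ ≤ l * 2 ^ j := Nat.find_spec hex
    have hj2 : j ≤ J := Nat.find_min' hex
      ((hmax ψ (mem_erase.2 ⟨hψ, mem_univ _⟩)).trans hJ')
    have hj3 : l * 2 ^ j ≤ 2 * Lc c ψ := by
      rcases Nat.eq_zero_or_pos j with h0 | h0
      · rw [h0]; simp; linarith
      · have h1 : ¬ Lc c ψ ≤ l * 2 ^ (j - 1) := Nat.find_min hex (by omega)
        have h2 : (2 : ℝ) ^ j = 2 * 2 ^ (j - 1) := by
          rw [← pow_succ']; congr 1; omega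
        rw [h2]
        push Not at h1
        linarith
    have h1 := gibbs_lower hc (hτ j) hj1 z
    have h2 : Q ψ z ≤ 2 * (1 + e) * (S j z * (l * 2 ^ j)) := by
      have h3 : S j z * (l * 2 ^ j) = (∑ χ, gw c (l * 2 ^ j) χ * Q χ z) / Zf c (l * 2 ^ j) := by
        simp only [S]
        have := (hZpos j).ne'
        have := (hτ j).ne'
        field_simp
      rw [h3, ← mul_div_assoc, le_div_iff₀ (hZpos j)]
      exact h1
    have h4 : S j z ≤ ∑ j ∈ range (J + 1), S j z :=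
      single_le_sum (fun j _ => hS j z) (mem_range.2 (by omega))
    calc Q ψ z ≤ 2 * (1 + e) * (S j z * (l * 2 ^ j)) := h2
      _ ≤ 2 * (1 + e) * ((∑ j ∈ range (J + 1), S j z) * (2 * Lc c ψ)) := by
          apply mul_le_mul_of_nonneg_left _ (by positivity)
          exact mul_le_mul h4 hj3 (hτ j).le (sum_nonneg fun j _ => hS j z)
      _ = _ := by ring
  · have h1 : ∑ z, c z * (4 * (1 + e) * ∑ j ∈ range (J + 1), S j z) =
        4 * (1 + e) * ∑ j ∈ range (J + 1), (∑ χ, gw c (l * 2 ^ j) χ * Lc c χ) /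
          (Zf c (l * 2 ^ j) * (l * 2 ^ j)) := by
      have h2 : ∀ j, (∑ χ, gw c (l * 2 ^ j) χ * Lc c χ) / (Zf c (l * 2 ^ j) * (l * 2 ^ j)) =
          ∑ z, c z * S j z := by
        intro j
        simp only [S, Lc]
        simp_rw [← mul_div_assoc, ← sum_div, mul_sum]
        rw [sum_comm]
        congr 1
        apply sum_congr rfl; intro z _
        apply sum_congr rfl; intro χ _
        ring
      simp_rw [h2]
      rw [sum_comm]
      simp_rw [mul_sum]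
      apply sum_congr rfl; intro z _
      apply sum_congr rfl; intro j _
      ring
    rw [h1]
    have h3 : ∑ j ∈ range (J + 1), (∑ χ, gw c (l * 2 ^ j) χ * Lc c χ) /
          (Zf c (l * 2 ^ j) * (l * 2 ^ j)) ≤
        ∑ j ∈ range (J + 1), 2 * (Real.log (Zf c (l * 2 ^ (j + 1))) -
          Real.log (Zf c (l * 2 ^ j))) := by
      apply sum_le_sum
      intro j _
      have := gibbs_upper c (hτ j)
      rwa [show 2 * (l * 2 ^ j) = l * 2 ^ (j + 1) by ring] at this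
    have h4 : ∑ j ∈ range (J + 1), 2 * (Real.log (Zf c (l * 2 ^ (j + 1))) -
          Real.log (Zf c (l * 2 ^ j))) ≤ 2 * Real.log (Fintype.card G) := by
      rw [← mul_sum, sum_range_sub (fun j => Real.log (Zf c (l * 2 ^ j)))]
      have h5 : Real.log (Zf c (l * 2 ^ (J + 1))) ≤ Real.log (Fintype.card G) :=
        Real.log_le_log (hZpos _) (Zf_le hc (hτ _))
      have h6 : 0 ≤ Real.log (Zf c (l * 2 ^ 0)) := Real.log_nonneg (one_le_Zf c _)
      linarith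
    calc 4 * (1 + e) * ∑ j ∈ range (J + 1), (∑ χ, gw c (l * 2 ^ j) χ * Lc c χ) /
          (Zf c (l * 2 ^ j) * (l * 2 ^ j)) ≤ 4 * (1 + e) * (2 * Real.log (Fintype.card G)) :=
          mul_le_mul_of_nonneg_left (h3.trans h4) (by positivity)
      _ = _ := by ring

end Vale.Agent.P318.H867
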