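import Vale.Agent.P318.H867.Fourier

/-! Characters with small total angle, for capacities with small support or small exponent. -/

open Finset
open scoped ComplexConjugate Real

set_option linter.unusedSectionVars false

namespace Vale.Agent.P318.H867

lemma exists_le_of_weighted {ι : Type*} (s : Finset ι) (a f : ι → ℝ) (ha : ∀ i ∈ s, 0 ≤ a i)
    (B : ℝ) (hpos : 0 < ∑ i ∈ s, a i) (h : ∑ i ∈ s, a i * f i ≤ B * ∑ i ∈ s, a i) :
    ∃ i ∈ s, f i ≤ B := by
  by_contra hcon
  push Not at hcon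
  obtain ⟨i, hi, hai⟩ : ∃ i ∈ s, 0 < a i := by
    by_contra h2
    push Not at h2
    exact absurd hpos (not_lt.2 (sum_nonpos h2))
  have : B * ∑ i ∈ s, a i < ∑ i ∈ s, a i * f i := by
    rw [mul_sum]
    apply sum_lt_sum
    · intro j hj
      rw [mul_comm]
      exact mul_le_mul_of_nonneg_left (hcon j hj).le (ha j hj)
    · refine ⟨i, hi, ?_⟩
      rw [mul_comm]
      exact mul_lt_mul_of_pos_left (hcon i hi) hai
  linarith

/-- The scale of a point of the unit circle different from `1`. -/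
lemma scale_exists {u : ℂ} (hu : ‖u‖ = 1) (h1 : u ≠ 1) :
    ∃ k : ℕ, ‖1 - u‖ ≤ π / 2 ^ k ∧ (u ^ (2 ^ k)).re ≤ 0 ∧
      ∀ m : ℕ, u ^ m = 1 → m ≠ 0 → 2 ^ (k + 1) ≤ m := by
  have hpi := Real.pi_pos
  set θ := u.arg with hθ
  have hexp : u = Complex.exp (Complex.I * θ) := by
    have := Complex.norm_mul_exp_arg_mul_I u
    rw [hu] at this
    rw [mul_comm, hθ]
    simpa using this.symm
  have hθ0 : θ ≠ 0 := by
    intro h
    apply h1
    rw [hexp, h]; simp
  have hθpos : 0 < |θ| := abs_pos.2 hθ0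
  have hθle : |θ| ≤ π := Complex.abs_arg_le_pi u
  obtain ⟨k, hk1, hk2⟩ := exists_nat_pow_near (x := π / |θ|) (y := 2)
    ((one_le_div hθpos).2 hθle) one_lt_two
  have hk1' : (2 : ℝ) ^ k * |θ| ≤ π := (le_div_iff₀ hθpos).1 hk1
  have hk2' : π < (2 : ℝ) ^ (k + 1) * |θ| := (div_lt_iff₀ hθpos).1 hk2
  have h2k : (0 : ℝ) < 2 ^ k := by positivity
  have hpow : ∀ m : ℕ, u ^ m = Complex.exp (Complex.I * ((m * θ : ℝ) : ℂ)) := by
    intro m
    conv_lhs => rw [hexp]
    rw [← Complex.exp_nat_mul]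
    congr 1
    push_cast
    ring
  refine ⟨k, ?_, ?_, ?_⟩
  · rw [norm_sub_rev, hexp]
    calc ‖Complex.exp (Complex.I * θ) - 1‖ ≤ ‖θ‖ := Real.norm_exp_I_mul_ofReal_sub_one_le
      _ = |θ| := Real.norm_eq_abs _
      _ ≤ π / 2 ^ k := by rw [le_div_iff₀ h2k]; linarith
  · rw [hpow, mul_comm, Complex.exp_ofReal_mul_I_re, ← Real.cos_abs, abs_mul]
    push_cast
    rw [abs_of_pos (by positivity : (0:ℝ) < 2 ^ k)]
    apply Real.cos_nonpos_of_pi_div_two_le_of_le
    · rw [pow_succ] at hk2'; linarith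
    · linarith
  · intro m hm hm0
    rw [hpow] at hm
    rw [Complex.exp_eq_one_iff] at hm
    obtain ⟨j, hj⟩ := hm
    have hj' : (m : ℝ) * θ = j * (2 * π) := by
      have h3 : Complex.I * ((m * θ : ℝ) : ℂ) = Complex.I * ((j * (2 * π) : ℝ) : ℂ) := by
        rw [hj]; push_cast; ring
      have h4 := mul_left_cancel₀ Complex.I_ne_zero h3
      exact_mod_cast h4
    have hj0 : j ≠ 0 := by
      rintro rfl
      have : (m : ℝ) * θ = 0 := by rw [hj']; simp
      rcases mul_eq_zero.1 this with h | h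
      · exact hm0 (by exact_mod_cast h)
      · exact hθ0 h
    have hj1 : (1 : ℝ) ≤ |(j : ℝ)| := by
      have : 1 ≤ |j| := Int.one_le_abs hj0
      exact_mod_cast this
    have h5 : 2 * π ≤ m * |θ| := by
      have : |(m : ℝ) * θ| = |(j : ℝ)| * (2 * π) := by
        rw [hj', abs_mul, abs_of_pos (by positivity : (0:ℝ) < 2 * π)]
      rw [abs_mul, Nat.abs_cast] at this
      rw [this]
      nlinarith
    have h6 : (2 : ℝ) ^ (k + 1) * |θ| ≤ m * |θ| := by
      calc (2 : ℝ) ^ (k + 1) * |θ| = 2 * (2 ^ k * |θ|) := by ring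
        _ ≤ 2 * π := by linarith
        _ ≤ m * |θ| := h5
    have h7 : (2 : ℝ) ^ (k + 1) ≤ m := le_of_mul_le_mul_right h6 hθpos
    exact_mod_cast h7

variable {G : Type*} [AddCommGroup G] [Fintype G] [DecidableEq G]

section
variable {A : AddChar G ℂ → ℝ} {r : G → ℝ}

lemma r_pow_le (hadd : ∀ z w, r (z + w) ≤ r z + r w) (k : ℕ) (z : G) :
    r (2 ^ k • z) ≤ 2 ^ k * r z := by
  induction k with
  | zero => simp
  | succ k ih =>
    have h1 : (2 ^ (k + 1)) • z = 2 ^ k • z + 2 ^ k • z := by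
      rw [pow_succ, mul_comm, mul_smul, two_smul]
    rw [h1]
    calc _ ≤ r (2 ^ k • z) + r (2 ^ k • z) := hadd _ _
      _ ≤ 2 ^ k * r z + 2 ^ k * r z := add_le_add ih ih
      _ = _ := by ring

/-- the mass of the characters which turn `2^k z` by at least a right angle -/
lemma mass_le (hA : ∀ χ, 0 ≤ A χ) (hr : ∀ z, r z = ∑ χ, A χ * Q χ z)
    (hadd : ∀ z w, r (z + w) ≤ r z + r w) (z : G) (k : ℕ) :
    ∑ χ with (χ z ^ 2 ^ k).re ≤ 0, A χ ≤ 2 ^ k * r z / 2 := by
  have h1 : ∑ χ with (χ z ^ 2 ^ k).re ≤ 0, A χ * 2 ≤ r (2 ^ k • z) := by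
    rw [hr]
    calc ∑ χ with (χ z ^ 2 ^ k).re ≤ 0, A χ * 2
        ≤ ∑ χ with (χ z ^ 2 ^ k).re ≤ 0, A χ * Q χ (2 ^ k • z) := by
          apply sum_le_sum
          intro χ hχ
          rw [mem_filter] at hχ
          apply mul_le_mul_of_nonneg_left _ (hA χ)
          rw [Q_eq, AddChar.map_nsmul_eq_pow]
          linarith [hχ.2]
      _ ≤ _ := sum_le_sum_of_subset_of_nonneg (filter_subset _ _)
          (fun χ _ _ => mul_nonneg (hA χ) (Q_nonneg _ _))
  have h2 := r_pow_le hadd k z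
  rw [← sum_mul] at h1
  linarith

lemma r_nonneg (hA : ∀ χ, 0 ≤ A χ) (hr : ∀ z, r z = ∑ χ, A χ * Q χ z) (z : G) : 0 ≤ r z := by
  rw [hr]; exact sum_nonneg fun χ _ => mul_nonneg (hA χ) (Q_nonneg _ _)

/-- one generator: the part of the spectrum with scale at least `K` -/
lemma one_gen (hA : ∀ χ, 0 ≤ A χ) (hr : ∀ z, r z = ∑ χ, A χ * Q χ z)
    (hadd : ∀ z w, r (z + w) ≤ r z + r w) (z : G) (K J : ℕ) (E : Finset (AddChar G ℂ))
    (hE : ∀ χ ∈ E, ∀ k < K, ¬ (χ z ^ 2 ^ k).re ≤ 0) (T : ℝ) (hT : ∑ χ ∈ E, A χ ≤ T) :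
    ∑ χ ∈ E, A χ * ‖1 - χ z‖ ≤ π / 2 * J * r z + π / 2 ^ (K + J) * T := by
  have hpi := Real.pi_pos
  have h1 : ∀ χ ∈ E, A χ * ‖1 - χ z‖ ≤
      ∑ k ∈ Ico K (K + J), (π / 2 ^ k) * (if (χ z ^ 2 ^ k).re ≤ 0 then A χ else 0) +
        π / 2 ^ (K + J) * A χ := by
    intro χ hχ
    have hnn : 0 ≤ ∑ k ∈ Ico K (K + J),
        (π / 2 ^ k) * (if (χ z ^ 2 ^ k).re ≤ 0 then A χ else 0) := by
      apply sum_nonneg
      intro k _
      apply mul_nonneg (by positivity)
      split_ifs
      · exact hA χ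
      · exact le_rfl
    by_cases h0 : χ z = 1
    · rw [h0]; simp only [sub_self, norm_zero, mul_zero]
      have := hA χ
      positivity
    obtain ⟨k, hk1, hk2, -⟩ := scale_exists (χ.norm_apply z) h0
    have hKk : K ≤ k := by
      by_contra hlt
      exact hE χ hχ k (not_le.1 hlt) hk2
    by_cases hkJ : k < K + J
    · have h2 : (π / 2 ^ k) * A χ ≤ ∑ k ∈ Ico K (K + J),
          (π / 2 ^ k) * (if (χ z ^ 2 ^ k).re ≤ 0 then A χ else 0) := by
        have := single_le_sum (f := fun k => (π / 2 ^ k) *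
          (if (χ z ^ 2 ^ k).re ≤ 0 then A χ else 0)) (s := Ico K (K + J)) (a := k)
          (fun j _ => by
            apply mul_nonneg (by positivity)
            split_ifs
            · exact hA χ
            · exact le_rfl) (mem_Ico.2 ⟨hKk, hkJ⟩)
        simpa [hk2] using this
      have h3 : A χ * ‖1 - χ z‖ ≤ (π / 2 ^ k) * A χ := by
        rw [mul_comm]; exact mul_le_mul_of_nonneg_right hk1 (hA χ)
      have h4 : 0 ≤ π / 2 ^ (K + J) * A χ := mul_nonneg (by positivity) (hA χ)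
      linarith
    · have h5 : π / 2 ^ k ≤ π / 2 ^ (K + J) := by
        apply div_le_div_of_nonneg_left hpi.le (by positivity)
        exact pow_le_pow_right₀ (by norm_num) (not_lt.1 hkJ)
      have h6 : A χ * ‖1 - χ z‖ ≤ (π / 2 ^ (K + J)) * A χ := by
        rw [mul_comm]; exact mul_le_mul_of_nonneg_right (hk1.trans h5) (hA χ)
      linarith
  calc ∑ χ ∈ E, A χ * ‖1 - χ z‖ ≤ ∑ χ ∈ E, (∑ k ∈ Ico K (K + J), (π / 2 ^ k) *
      (if (χ z ^ 2 ^ k).re ≤ 0 then A χ else 0) + π / 2 ^ (K + J) * A χ) := sum_le_sum h1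
    _ = ∑ k ∈ Ico K (K + J), (π / 2 ^ k) *
        ∑ χ ∈ E, (if (χ z ^ 2 ^ k).re ≤ 0 then A χ else 0) + π / 2 ^ (K + J) * ∑ χ ∈ E, A χ := by
        rw [sum_add_distrib, sum_comm]
        simp_rw [← mul_sum]
    _ ≤ ∑ k ∈ Ico K (K + J), (π / 2 ^ k) * (2 ^ k * r z / 2) + π / 2 ^ (K + J) * T := by
        apply add_le_add
        · apply sum_le_sum
          intro k _
          apply mul_le_mul_of_nonneg_left _ (by positivity)
          refine le_trans ?_ (mass_le hA hr hadd z k)
          rw [sum_filter]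
          apply sum_le_sum_of_subset_of_nonneg (subset_univ _)
          intro χ _ _
          split_ifs
          · exact hA χ
          · exact le_rfl
        · exact mul_le_mul_of_nonneg_left hT (by positivity)
    _ = π / 2 * J * r z + π / 2 ^ (K + J) * T := by
        congr 1
        have : ∀ k ∈ Ico K (K + J), (π / 2 ^ k) * (2 ^ k * r z / 2) = π / 2 * r z := by
          intro k _
          have : (2 : ℝ) ^ k ≠ 0 := by positivity
          field_simp
        rw [sum_congr rfl this]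
        simp
        ring

/-- **Small support.** -/
theorem exists_char_support (hA : ∀ χ, 0 ≤ A χ) (hr : ∀ z, r z = ∑ χ, A χ * Q χ z)
    (hadd : ∀ z w, r (z + w) ≤ r z + r w) {c : G → ℝ} (hc : ∀ z, 0 ≤ c z)
    (hT : 0 < ∑ χ ∈ univ.erase (0 : AddChar G ℂ), A χ)
    (M J : ℕ) (hM1 : 1 ≤ M) (hM : (univ.filter fun z => c z ≠ 0).card ≤ M) (hJ : 4 * M ≤ 2 ^ J) :
    ∃ χ : AddChar G ℂ, χ ≠ 0 ∧
      (∑ z, c z * ‖1 - χ z‖) * ∑ χ ∈ univ.erase (0 : AddChar G ℂ), A χ ≤
        2 * π / 3 * (J + 2) * ∑ z, c z * r z := by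
  have hpi := Real.pi_pos
  set T := ∑ χ ∈ univ.erase (0 : AddChar G ℂ), A χ with hTdef
  have hr0 := r_nonneg hA hr
  have hM1' : (1 : ℝ) ≤ M := by exact_mod_cast hM1
  let K : G → ℕ := fun z => if r z = 0 then 0 else Nat.log 2 ⌊T / (2 * M * r z)⌋₊
  let Bad : G → Finset (AddChar G ℂ) := fun z =>
    univ.filter fun χ => ∃ k < K z, (χ z ^ 2 ^ k).re ≤ 0
  -- the bad sets are small
  have hbad : ∀ z, ∑ χ ∈ Bad z, A χ ≤ T / (4 * M) := by
    intro z
    by_cases hK0 : K z = 0
    · have : Bad z = ∅ := by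
        apply filter_eq_empty_iff.2
        rintro χ - ⟨k, hk, -⟩
        omega
      rw [this, sum_empty]
      positivity
    have hrz : 0 < r z := by
      rcases (hr0 z).lt_or_eq with h | h
      · exact h
      · exact absurd (by simp [K, h.symm]) hK0
    have h1 : ∑ χ ∈ Bad z, A χ ≤ ∑ k ∈ range (K z), (2 ^ k * r z / 2) := by
      calc ∑ χ ∈ Bad z, A χ ≤ ∑ χ, ∑ k ∈ range (K z),
            (if (χ z ^ 2 ^ k).re ≤ 0 then A χ else 0) := by
            rw [sum_filter]
            apply sum_le_sum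
            intro χ _
            have hnn : ∀ k ∈ range (K z), 0 ≤ (if (χ z ^ 2 ^ k).re ≤ 0 then A χ else 0) := by
              intro k _
              split_ifs
              · exact hA χ
              · exact le_rfl
            split_ifs with h2
            · obtain ⟨k, hk, hk2⟩ := h2
              have := single_le_sum hnn (mem_range.2 hk)
              simpa [hk2] using this
            · exact sum_nonneg hnn
        _ = ∑ k ∈ range (K z), ∑ χ with (χ z ^ 2 ^ k).re ≤ 0, A χ := by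
            rw [sum_comm]
            simp_rw [sum_filter]
        _ ≤ _ := sum_le_sum fun k _ => mass_le hA hr hadd z k
    have h2 : ∑ k ∈ range (K z), (2 ^ k * r z / 2 : ℝ) = (2 ^ K z - 1) * (r z / 2) := by
      have := geom_sum_eq (x := (2:ℝ)) (by norm_num) (K z)
      simp_rw [mul_div_assoc, ← sum_mul, this]
      norm_num
    have hfl : ⌊T / (2 * M * r z)⌋₊ ≠ 0 := by
      intro h3
      exact hK0 (by simp [K, h3])
    have hK1 : (2 : ℝ) ^ K z ≤ T / (2 * M * r z) := by
      have h3 : 2 ^ K z ≤ ⌊T / (2 * M * r z)⌋₊ := by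
        simp only [K, hrz.ne', if_false]
        exact Nat.pow_log_le_self 2 hfl
      calc (2 : ℝ) ^ K z = ((2 ^ K z : ℕ) : ℝ) := by push_cast; rfl
        _ ≤ (⌊T / (2 * M * r z)⌋₊ : ℝ) := by exact_mod_cast h3
        _ ≤ _ := Nat.floor_le (by positivity)
    calc ∑ χ ∈ Bad z, A χ ≤ (2 ^ K z - 1) * (r z / 2) := h1.trans h2.le
      _ ≤ 2 ^ K z * (r z / 2) := by nlinarith
      _ ≤ T / (2 * M * r z) * (r z / 2) := by
          apply mul_le_mul_of_nonneg_right hK1 (by positivity)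
      _ = T / (4 * M) := by field_simp; ring
  -- the scale is not too small
  have hscale : ∀ z, 0 < r z → T ≤ 4 * M * r z * 2 ^ K z := by
    intro z hrz
    have h1 : T / (2 * M * r z) < 2 ^ (K z + 1) := by
      have h2 : ⌊T / (2 * M * r z)⌋₊ < 2 ^ (K z + 1) := by
        simp only [K, hrz.ne', if_false]
        exact Nat.lt_pow_succ_log_self (by norm_num) _
      calc T / (2 * M * r z) < ⌊T / (2 * M * r z)⌋₊ + 1 := Nat.lt_floor_add_one _
        _ ≤ 2 ^ (K z + 1) := by exact_mod_cast h2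
    rw [div_lt_iff₀ (by positivity)] at h1
    rw [pow_succ] at h1
    linarith
  -- the good set
  let supp : Finset G := univ.filter fun z => c z ≠ 0
  let E : Finset (AddChar G ℂ) := (univ.erase 0).filter fun χ => ∀ z ∈ supp, χ ∉ Bad z
  have hEmass : 3 / 4 * T ≤ ∑ χ ∈ E, A χ := by
    have h1 : T ≤ ∑ χ ∈ E, A χ + ∑ z ∈ supp, ∑ χ ∈ Bad z, A χ := by
      have h2 : T = ∑ χ ∈ E, A χ +
          ∑ χ ∈ (univ.erase (0 : AddChar G ℂ)).filter (fun χ => ¬ ∀ z ∈ supp, χ ∉ Bad z), A χ := by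
        rw [hTdef, sum_filter_add_sum_filter_not]
      have h3 : ∑ χ ∈ (univ.erase (0 : AddChar G ℂ)).filter
          (fun χ => ¬ ∀ z ∈ supp, χ ∉ Bad z), A χ ≤ ∑ z ∈ supp, ∑ χ ∈ Bad z, A χ := by
        calc ∑ χ ∈ (univ.erase (0 : AddChar G ℂ)).filter
              (fun χ => ¬ ∀ z ∈ supp, χ ∉ Bad z), A χ ≤
              ∑ χ, ∑ z ∈ supp, (if χ ∈ Bad z then A χ else 0) := by
              refine le_trans ?_ (sum_le_sum_of_subset_of_nonneg
                (s := (univ.erase (0 : AddChar G ℂ)).filter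
                  (fun χ => ¬ ∀ z ∈ supp, χ ∉ Bad z)) (subset_univ _) ?_)
              · apply sum_le_sum
                intro χ hχ
                have h4 := (mem_filter.1 hχ).2
                push Not at h4
                obtain ⟨z, hz, hz2⟩ := h4
                have := single_le_sum (f := fun z => if χ ∈ Bad z then A χ else 0)
                  (fun z _ => by
                    change 0 ≤ if χ ∈ Bad z then A χ else 0
                    split_ifs
                    · exact hA χ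
                    · exact le_rfl) hz
                simpa [hz2] using this
              · intro χ _ _
                apply sum_nonneg
                intro z _
                split_ifs
                · exact hA χ
                · exact le_rfl
          _ = ∑ z ∈ supp, ∑ χ ∈ Bad z, A χ := by
              rw [sum_comm]
              apply sum_congr rfl; intro z _
              rw [← sum_filter]
              simp
      linarith
    have h5 : ∑ z ∈ supp, ∑ χ ∈ Bad z, A χ ≤ T / 4 := by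
      calc ∑ z ∈ supp, ∑ χ ∈ Bad z, A χ ≤ ∑ z ∈ supp, T / (4 * M) := sum_le_sum fun z _ => hbad z
        _ = (supp.card : ℝ) * (T / (4 * M)) := by simp
        _ ≤ M * (T / (4 * M)) := by
            apply mul_le_mul_of_nonneg_right _ (by positivity)
            exact_mod_cast hM
        _ = T / 4 := by field_simp
    linarith
  have hEpos : 0 < ∑ χ ∈ E, A χ := by linarith [hEmass, hT]
  have hET : ∑ χ ∈ E, A χ ≤ T := by
    apply sum_le_sum_of_subset_of_nonneg (filter_subset _ _)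
    intro χ _ _; exact hA χ
  -- the cost
  have hcost : ∀ z, c z * ∑ χ ∈ E, A χ * ‖1 - χ z‖ ≤ π / 2 * (J + 2) * (c z * r z) := by
    intro z
    by_cases hcz : c z = 0
    · simp [hcz]
    have hz : z ∈ supp := mem_filter.2 ⟨mem_univ _, hcz⟩
    have hmain : ∑ χ ∈ E, A χ * ‖1 - χ z‖ ≤ π / 2 * (J + 2) * r z := by
      rcases (hr0 z).lt_or_eq with hrz | hrz
      · have h1 := one_gen hA hr hadd z (K z) J E (fun χ hχ k hk h2 =>
          ((mem_filter.1 hχ).2 z hz) (mem_filter.2 ⟨mem_univ _, k, hk, h2⟩)) T hET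
        have h3 : π / 2 ^ (K z + J) * T ≤ π * r z := by
          have h4 := hscale z hrz
          have h5 : (4 * M : ℝ) ≤ 2 ^ J := by exact_mod_cast hJ
          rw [div_mul_eq_mul_div, div_le_iff₀ (by positivity), pow_add]
          have h6 : T ≤ 2 ^ J * r z * 2 ^ K z := by
            refine h4.trans ?_
            apply mul_le_mul_of_nonneg_right _ (by positivity)
            exact mul_le_mul_of_nonneg_right h5 hrz.le
          calc π * T ≤ π * (2 ^ J * r z * 2 ^ K z) := mul_le_mul_of_nonneg_left h6 hpi.le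
            _ = _ := by ring
        nlinarith
      · have h0 : ∀ χ, A χ * Q χ z = 0 := by
          have h1 : ∑ χ, A χ * Q χ z = 0 := by rw [← hr, ← hrz]
          intro χ
          exact (sum_eq_zero_iff_of_nonneg
            (fun χ _ => mul_nonneg (hA χ) (Q_nonneg χ z))).1 h1 χ (mem_univ _)
        have h2 : ∀ χ ∈ E, A χ * ‖1 - χ z‖ = 0 := by
          intro χ _
          rcases mul_eq_zero.1 (h0 χ) with h | h
          · rw [h, zero_mul]
          · unfold Q at h
            have : ‖1 - χ z‖ = 0 := by simpa using h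
            rw [this, mul_zero]
        rw [sum_eq_zero h2, ← hrz]
        simp
    calc c z * ∑ χ ∈ E, A χ * ‖1 - χ z‖ ≤ c z * (π / 2 * (J + 2) * r z) :=
          mul_le_mul_of_nonneg_left hmain (hc z)
      _ = _ := by ring
  have htot : ∑ χ ∈ E, A χ * ∑ z, c z * ‖1 - χ z‖ ≤ π / 2 * (J + 2) * ∑ z, c z * r z := by
    calc ∑ χ ∈ E, A χ * ∑ z, c z * ‖1 - χ z‖ = ∑ z, c z * ∑ χ ∈ E, A χ * ‖1 - χ z‖ := by
          simp_rw [mul_sum]
          rw [sum_comm]
          apply sum_congr rfl; intro z _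
          apply sum_congr rfl; intro χ _
          ring
      _ ≤ ∑ z, π / 2 * (J + 2) * (c z * r z) := sum_le_sum fun z _ => hcost z
      _ = _ := by rw [mul_sum]
  have hcr : 0 ≤ ∑ z, c z * r z := sum_nonneg fun z _ => mul_nonneg (hc z) (hr0 z)
  obtain ⟨χ, hχE, hχ⟩ := exists_le_of_weighted E A (fun χ => ∑ z, c z * ‖1 - χ z‖)
    (fun χ _ => hA χ) ((2 * π / 3 * (J + 2) * ∑ z, c z * r z) / T) hEpos (by
      refine htot.trans ?_
      rw [div_mul_eq_mul_div (2 * π / 3 * (J + 2) * ∑ z, c z * r z) T, le_div_iff₀ hT]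
      have h7 : 0 ≤ 2 * π / 3 * (J + 2) * ∑ z, c z * r z := by positivity
      calc π / 2 * (J + 2) * (∑ z, c z * r z) * T
          = (2 * π / 3 * (J + 2) * ∑ z, c z * r z) * (3 / 4 * T) := by ring
        _ ≤ _ := mul_le_mul_of_nonneg_left hEmass h7)
  refine ⟨χ, (mem_erase.1 (mem_filter.1 hχE).1).1, ?_⟩
  rw [← le_div_iff₀ hT]
  exact hχ

/-- **Small exponent.** -/
theorem exists_char_exponent (hA : ∀ χ, 0 ≤ A χ) (hr : ∀ z, r z = ∑ χ, A χ * Q χ z)
    (hadd : ∀ z w, r (z + w) ≤ r z + r w) {c : G → ℝ} (hc : ∀ z, 0 ≤ c z)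
    (hT : 0 < ∑ χ ∈ univ.erase (0 : AddChar G ℂ), A χ)
    (m J : ℕ) (hm0 : m ≠ 0) (hm : ∀ z : G, m • z = 0) (hJ : m ≤ 2 ^ J) :
    ∃ χ : AddChar G ℂ, χ ≠ 0 ∧
      (∑ z, c z * ‖1 - χ z‖) * ∑ χ ∈ univ.erase (0 : AddChar G ℂ), A χ ≤
        π / 2 * J * ∑ z, c z * r z := by
  have hpi := Real.pi_pos
  set T := ∑ χ ∈ univ.erase (0 : AddChar G ℂ), A χ with hTdef
  have hr0 := r_nonneg hA hr
  have hmain : ∀ z, ∑ χ ∈ univ.erase (0 : AddChar G ℂ), A χ * ‖1 - χ z‖ ≤ π / 2 * J * r z := by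
    intro z
    have h1 : ∀ χ ∈ univ.erase (0 : AddChar G ℂ), A χ * ‖1 - χ z‖ ≤
        ∑ k ∈ range J, (π / 2 ^ k) * (if (χ z ^ 2 ^ k).re ≤ 0 then A χ else 0) := by
      intro χ _
      have hnn : ∀ k ∈ range J, 0 ≤ (π / 2 ^ k) * (if (χ z ^ 2 ^ k).re ≤ 0 then A χ else 0) := by
        intro k _
        apply mul_nonneg (by positivity)
        split_ifs
        · exact hA χ
        · exact le_rfl
      by_cases h0 : χ z = 1
      · have h00 : A χ * ‖1 - χ z‖ = 0 := by rw [h0]; simp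
        rw [h00]
        exact sum_nonneg hnn
      obtain ⟨k, hk1, hk2, hk3⟩ := scale_exists (χ.norm_apply z) h0
      have hk4 : 2 ^ (k + 1) ≤ m := by
        apply hk3 m _ hm0
        rw [← AddChar.map_nsmul_eq_pow, hm z, AddChar.map_zero_eq_one]
      have hkJ : k < J := by
        have : 2 ^ (k + 1) ≤ 2 ^ J := hk4.trans hJ
        have := (Nat.pow_le_pow_iff_right (by norm_num)).1 this
        omega
      have := single_le_sum hnn (mem_range.2 hkJ)
      simp only [hk2, if_true] at this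
      refine le_trans ?_ this
      rw [mul_comm]; exact mul_le_mul_of_nonneg_right hk1 (hA χ)
    calc _ ≤ ∑ χ ∈ univ.erase (0 : AddChar G ℂ), ∑ k ∈ range J, (π / 2 ^ k) *
          (if (χ z ^ 2 ^ k).re ≤ 0 then A χ else 0) := sum_le_sum h1
      _ = ∑ k ∈ range J, (π / 2 ^ k) *
          ∑ χ ∈ univ.erase (0 : AddChar G ℂ), (if (χ z ^ 2 ^ k).re ≤ 0 then A χ else 0) := by
          rw [sum_comm]
          simp_rw [← mul_sum]
      _ ≤ ∑ k ∈ range J, (π / 2 ^ k) * (2 ^ k * r z / 2) := by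
          apply sum_le_sum
          intro k _
          apply mul_le_mul_of_nonneg_left _ (by positivity)
          refine le_trans ?_ (mass_le hA hr hadd z k)
          rw [sum_filter]
          apply sum_le_sum_of_subset_of_nonneg (subset_univ _)
          intro χ _ _
          split_ifs
          · exact hA χ
          · exact le_rfl
      _ = π / 2 * J * r z := by
          have : ∀ k ∈ range J, (π / 2 ^ k) * (2 ^ k * r z / 2) = π / 2 * r z := by
            intro k _
            have : (2 : ℝ) ^ k ≠ 0 := by positivity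
            field_simp
          rw [sum_congr rfl this]
          simp
          ring
  have htot : ∑ χ ∈ univ.erase (0 : AddChar G ℂ), A χ * ∑ z, c z * ‖1 - χ z‖ ≤
      π / 2 * J * ∑ z, c z * r z := by
    calc ∑ χ ∈ univ.erase (0 : AddChar G ℂ), A χ * ∑ z, c z * ‖1 - χ z‖
        = ∑ z, c z * ∑ χ ∈ univ.erase (0 : AddChar G ℂ), A χ * ‖1 - χ z‖ := by
          simp_rw [mul_sum]
          rw [sum_comm]
          apply sum_congr rfl; intro z _
          apply sum_congr rfl; intro χ _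
          ring
      _ ≤ ∑ z, c z * (π / 2 * J * r z) :=
          sum_le_sum fun z _ => mul_le_mul_of_nonneg_left (hmain z) (hc z)
      _ = _ := by rw [mul_sum]; apply sum_congr rfl; intro z _; ring
  obtain ⟨χ, hχE, hχ⟩ := exists_le_of_weighted (univ.erase (0 : AddChar G ℂ)) A
    (fun χ => ∑ z, c z * ‖1 - χ z‖)
    (fun χ _ => hA χ) ((π / 2 * J * ∑ z, c z * r z) / T) hT (by
      refine htot.trans ?_
      rw [div_mul_cancel₀ _ hT.ne'])
  refine ⟨χ, (mem_erase.1 hχE).1, ?_⟩
  rw [← le_div_iff₀ hT]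
  exact hχ

end

end Vale.Agent.P318.H867
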